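import Vale.Agent.P006.CM.CubeXi
import Vale.Agent.P006.V1F.Hyp

/-!
P006, block CM: the last input of the first dispersion sum.
-/

namespace Vale.Agent.P006.CM

theorem cubeXi : V1C.CubeXi := fun _ h => cubeKernel_xi h

/-- **V1**, unconditional -/
theorem v1Hyp : DISP.V1Hyp := V1F.v1Hyp_of_cube cubeXi

end Vale.Agent.P006.CM
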