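import Vale.Agent.P006.CM.NCsm
import Vale.Agent.P006.CMX.Modulus

/-!
P006, block CM: the modulus of the constant, unconditionally.
-/

namespace Vale.Agent.P006.CM

theorem autNorm : AutNorm := CMX.autNorm ncsm

end Vale.Agent.P006.CM
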