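import Vale.Agent.P006.CM.V3Hyp
import Vale.Agent.P006.DEC.Cond
import Vale.Agent.P006.DEC.Arith

/-!
P006, block CM: from `∑_b |Θ(b)|²` to pairs, and `DISP.V3Hyp`.
-/

namespace Vale.Agent.P006.CM

open Vale.Agent.P006 Finset MeasureTheory
open Vale.Agent.P006.TI
open Vale.Agent.P006.DISP (Th T3 Vx Bump kapP IVr)

/-- radical of a primary element -/
noncomputable def radO (D : O) : O := pr (pdv D)

theorem radO_primary {D : O} (hD : D ≠ 0) : Primary (radO D) := primary_pr (isPSet_pdv hD)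
theorem radO_sqf {D : O} (hD : D ≠ 0) : Squarefree (radO D) := squarefree_pr (isPSet_pdv hD)
theorem pdv_radO {D : O} (hD : D ≠ 0) : pdv (radO D) = pdv D := pdv_pr (isPSet_pdv hD)

theorem isCoprime_radO {b D : O} (hb : Primary b) (hD : Primary D) :
    IsCoprime b (radO D) ↔ IsCoprime b D := by
  rw [isCoprime_iff_disjoint_pdv hb (radO_primary hD.ne_zero), isCoprime_iff_disjoint_pdv hb hD,
    pdv_radO hD.ne_zero]

theorem radO_dvd {D : O} (hD : D ≠ 0) : radO D ∣ D :=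
  (pr_dvd_iff (isPSet_pdv hD) hD).2 (Finset.Subset.refl _)

theorem card_D_radO_le {D : O} (hD : Primary D) : (HB.D (radO D)).card ≤ tau D := by
  apply Finset.card_le_card
  intro d hd
  rw [HB.mem_D (radO_primary hD.ne_zero).ne_zero] at hd
  rw [mem_dvs hD.ne_zero]
  exact ⟨hd.1, hd.2.trans (radO_dvd hD.ne_zero)⟩

theorem dn_radO {D : O} (hD : D ≠ 0) : dn (radO D) = dens D := by
  rw [dn, pdv_radO hD, dens]

theorem isDec_cube {a m : O} (ha : InP a) (hm : Primary m) : DEC.IsDec (a * m ^ 3) 1 0 a 1 m :=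
  ⟨isUnit_one, ha.1, primary_one, hm, by simpa using ha.2, by ring⟩

theorem cube_unique {a a' m m' : O} (ha : InP a) (ha' : InP a') (hm : Primary m)
    (hm' : Primary m') (h : a * m ^ 3 = a' * m' ^ 3) : a = a' ∧ m = m' := by
  have h1 := isDec_cube ha hm
  have h2 := isDec_cube ha' hm'
  rw [← h] at h2
  obtain ⟨_, _, h3, _, h4⟩ := h1.unique h2
  exact ⟨h3, h4⟩

open Classical in
/-- the `m` with `b = b₁ m³` -/
noncomputable def cm (b : O) : Finset O := (dvs b).filter (fun m => ∃ b1, InP b1 ∧ b = b1 * m ^ 3)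

theorem mem_cm {b m : O} (hb : b ≠ 0) :
    m ∈ cm b ↔ Primary m ∧ ∃ b1, InP b1 ∧ b = b1 * m ^ 3 := by
  classical
  rw [cm, mem_filter, mem_dvs hb]
  constructor
  · rintro ⟨⟨h1, _⟩, h2⟩; exact ⟨h1, h2⟩
  · rintro ⟨h1, b1, h2, h3⟩
    refine ⟨⟨h1, ?_⟩, b1, h2, h3⟩
    rw [h3]; exact Dvd.dvd.mul_left (dvd_pow_self m (by norm_num)) b1

theorem Th_eq (b : O) : Th b = ∑ m ∈ cm b,
    (starRingEnd ℂ) (gt 1 (b / m ^ 3)) * (((N (b / m ^ 3) : ℝ) ^ (-(1 / 6) : ℝ) : ℝ) : ℂ) := by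
  rw [Th, cm]

theorem norm_Th_sq {b : O} (hb : b ≠ 0) :
    ‖Th b‖ ^ 2 = ∑ m ∈ cm b, (N (b / m ^ 3) : ℝ) ^ (-(1 / 3) : ℝ) := by
  rcases (cm b).eq_empty_or_nonempty with h | ⟨m, hm⟩
  · rw [Th_eq, h]; simp
  · have h1 : cm b = {m} := by
      rw [eq_singleton_iff_unique_mem]
      refine ⟨hm, fun m' hm' => ?_⟩
      rw [mem_cm hb] at hm hm'
      obtain ⟨h1, b1, h2, h3⟩ := hm
      obtain ⟨h1', b1', h2', h3'⟩ := hm'
      exact (cube_unique h2' h2 h1' h1 (h3'.symm.trans h3)).2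
    rw [Th_eq, h1, sum_singleton, sum_singleton]
    rw [mem_cm hb] at hm
    obtain ⟨h2, b1, h3, h4⟩ := hm
    have h5 : b / m ^ 3 = b1 := by
      rw [h4, mul_comm, mul_div_self (pow_ne_zero 3 h2.ne_zero)]
    have hN : (0 : ℝ) < N b1 := by exact_mod_cast N_pos h3.ne_zero
    rw [h5, norm_mul, RCLike.norm_conj, norm_gt_one h3, one_mul, Complex.norm_real,
      Real.norm_of_nonneg (by positivity), ← Real.rpow_natCast, ← Real.rpow_mul hN.le]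
    norm_num

/-- sum over `b` and its cube part as a sum over pairs -/
theorem sum_cm {R : Type*} [AddCommMonoid R] (X : ℝ) (F : O → O → R) :
    ∑ b ∈ PB X, ∑ m ∈ cm b, F b m =
      ∑ m ∈ PB X, ∑ b1 ∈ SPB X,
        if (N (b1 * m ^ 3) : ℝ) ≤ X then F (b1 * m ^ 3) m else 0 := by
  classical
  have h1 : ∀ m ∈ PB X, (∑ b1 ∈ SPB X,
      if (N (b1 * m ^ 3) : ℝ) ≤ X then F (b1 * m ^ 3) m else 0) =
      ∑ b1 ∈ (SPB X).filter (fun b1 => (N (b1 * m ^ 3) : ℝ) ≤ X), F (b1 * m ^ 3) m := by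
    intro m _
    rw [sum_filter]
  rw [sum_congr rfl h1, sum_sigma', sum_sigma']
  refine sum_bij' (fun x _ => ⟨x.2, x.1 / x.2 ^ 3⟩) (fun y _ => ⟨y.2 * y.1 ^ 3, y.1⟩)
    ?_ ?_ ?_ ?_ ?_
  · rintro ⟨b, m⟩ h
    simp only [mem_sigma, mem_PB, mem_filter, mem_SPB] at h ⊢
    obtain ⟨⟨hb, hbX⟩, hm⟩ := h
    rw [mem_cm hb.ne_zero] at hm
    obtain ⟨h2, b1, h3, h4⟩ := hm
    have h5 : b / m ^ 3 = b1 := by
      rw [h4, mul_comm, mul_div_self (pow_ne_zero 3 h2.ne_zero)]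
    have hm1 := h2.one_le_N'
    have hb1 := h3.1.one_le_N'
    have h6 : (N b : ℝ) = N b1 * (N m : ℝ) ^ 3 := by rw [h4, N_mul, N_pow]; push_cast; ring
    have h7 : (N m : ℝ) ≤ (N m : ℝ) ^ 3 := le_self_pow₀ hm1 (by norm_num)
    have h8 : (1 : ℝ) ≤ (N m : ℝ) ^ 3 := one_le_pow₀ hm1
    rw [h5]
    refine ⟨⟨h2, ?_⟩, ⟨⟨h3.1, ?_⟩, h3.2⟩, ?_⟩
    · calc (N m : ℝ) ≤ 1 * (N m : ℝ) ^ 3 := by linarith
        _ ≤ N b1 * (N m : ℝ) ^ 3 := by gcongr
        _ ≤ X := by rw [← h6]; exact hbX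
    · calc (N b1 : ℝ) = N b1 * 1 := by ring
        _ ≤ N b1 * (N m : ℝ) ^ 3 := by gcongr
        _ ≤ X := by rw [← h6]; exact hbX
    · rw [← h4]; exact hbX
  · rintro ⟨m, b1⟩ h
    simp only [mem_sigma, mem_PB, mem_filter, mem_SPB] at h ⊢
    obtain ⟨⟨hm, _⟩, ⟨⟨h1, _⟩, h2⟩, h3⟩ := h
    refine ⟨⟨h1.mul (hm.pow 3), h3⟩, ?_⟩
    rw [mem_cm (h1.mul (hm.pow 3)).ne_zero]
    exact ⟨hm, b1, ⟨h1, h2⟩, rfl⟩
  · rintro ⟨b, m⟩ h
    simp only [mem_sigma, mem_PB] at h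
    obtain ⟨⟨hb, hbX⟩, hm⟩ := h
    rw [mem_cm hb.ne_zero] at hm
    obtain ⟨h2, b1, h3, h4⟩ := hm
    have h5 : b / m ^ 3 = b1 := by
      rw [h4, mul_comm, mul_div_self (pow_ne_zero 3 h2.ne_zero)]
    simp only [h5, ← h4]
  · rintro ⟨m, b1⟩ h
    simp only [mem_sigma, mem_PB, mem_filter, mem_SPB] at h
    obtain ⟨⟨hm, _⟩, _⟩ := h
    have h5 : b1 * m ^ 3 / m ^ 3 = b1 := by
      rw [mul_comm, mul_div_self (pow_ne_zero 3 hm.ne_zero)]
    simp only [h5]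
  · rintro ⟨b, m⟩ h
    simp only [mem_sigma, mem_PB] at h
    obtain ⟨⟨hb, hbX⟩, hm⟩ := h
    rw [mem_cm hb.ne_zero] at hm
    obtain ⟨h2, b1, h3, h4⟩ := hm
    have h5 : b / m ^ 3 = b1 := by
      rw [h4, mul_comm, mul_div_self (pow_ne_zero 3 h2.ne_zero)]
    simp only [h5, ← h4]

theorem isCoprime_mul_cube {b1 m D : O} :
    IsCoprime (b1 * m ^ 3) D ↔ IsCoprime b1 D ∧ IsCoprime m D := by
  rw [IsCoprime.mul_left_iff, IsCoprime.pow_left_iff (by norm_num)]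

open Classical in
theorem T3_eq {V : ℝ → ℝ} (hVb : ∀ u, 4 ≤ u → V u = 0) {B : ℝ} (hB : 0 < B) {D : O}
    (hD : Primary D) :
    T3 V B D = ∑ b3 ∈ (PB (4 * B)).filter (fun b3 => IsCoprime b3 (radO D)),
      ∑ b1 ∈ SC (radO D) (4 * B),
        V ((N b1 : ℝ) * (N b3 : ℝ) ^ 3 / B) * (N b1 : ℝ) ^ (-(1 / 3) : ℝ) := by
  have e1 : T3 V B D = ∑ b ∈ PB (4 * B), ∑ m ∈ cm b,
      DISP.wt V B D b * (N (b / m ^ 3) : ℝ) ^ (-(1 / 3) : ℝ) := by
    rw [T3]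
    refine sum_congr rfl fun b hb => ?_
    rw [norm_Th_sq (mem_PB.1 hb).1.ne_zero, mul_sum]
  rw [e1, sum_cm (4 * B) (fun b m => DISP.wt V B D b * (N (b / m ^ 3) : ℝ) ^ (-(1 / 3) : ℝ)),
    sum_filter]
  refine sum_congr rfl fun m hm => ?_
  have hmP := (mem_PB.1 hm).1
  have e2 : ∀ b1, b1 * m ^ 3 / m ^ 3 = b1 := fun b1 => by
    rw [mul_comm, mul_div_self (pow_ne_zero 3 hmP.ne_zero)]
  simp only [e2]
  by_cases hmD : IsCoprime m (radO D)
  · rw [if_pos hmD]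
    have e3 : SC (radO D) (4 * B) = (SPB (4 * B)).filter (fun b1 => IsCoprime b1 (radO D)) := by
      ext b1
      rw [mem_SC, mem_filter, mem_SPB]; tauto
    rw [e3, sum_filter]
    refine sum_congr rfl fun b1 hb1 => ?_
    have hb1P := (mem_SPB.1 hb1).1.1
    have hm1 := hmP.one_le_N'
    have hcop : IsCoprime (b1 * m ^ 3) D ↔ IsCoprime b1 (radO D) := by
      rw [isCoprime_mul_cube, isCoprime_radO hb1P hD]
      rw [isCoprime_radO hmP hD] at hmD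
      tauto
    have hNN : ((N (b1 * m ^ 3) : ℕ) : ℝ) = (N b1 : ℝ) * (N m : ℝ) ^ 3 := by
      rw [N_mul, N_pow]; push_cast; ring
    rw [DISP.wt, hNN]
    by_cases hc : IsCoprime b1 (radO D)
    · rw [if_pos hc, if_pos (hcop.2 hc)]
      split_ifs with h5
      · rfl
      · rw [hVb, zero_mul]
        rw [le_div_iff₀ hB]
        exact (not_le.1 h5).le
    · rw [if_neg hc, if_neg (fun h => hc (hcop.1 h))]
      simp
  · rw [if_neg hmD]
    refine sum_eq_zero fun b1 hb1 => ?_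
    have hb1P := (mem_SPB.1 hb1).1.1
    have hcop : ¬ IsCoprime (b1 * m ^ 3) D := by
      rw [isCoprime_mul_cube]
      rw [isCoprime_radO hmP hD] at hmD
      tauto
    rw [DISP.wt, if_neg hcop]
    simp

section Bumps

variable {V0 : ℝ → ℝ}

theorem _root_.Vale.Agent.P006.DISP.Bump.zero (h : Bump V0) {x : ℝ} (hx : x < -(1 / 2) ∨ 3 / 2 < x) :
    V0 x = 0 := by
  by_contra hcon
  have := h.supp x hcon
  rcases hx with hx | hx <;> linarith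

theorem _root_.Vale.Agent.P006.DISP.Bump.compact (h : Bump V0) : HasCompactSupport V0 := by
  refine HasCompactSupport.intro (isCompact_Icc (a := (-(1 / 2) : ℝ)) (b := 3 / 2)) fun x hx => ?_
  rw [Set.mem_Icc, not_and_or, not_le, not_le] at hx
  exact h.zero hx

theorem _root_.Vale.Agent.P006.DISP.Bump.deriv_bound (h : Bump V0) :
    ∃ S : ℝ, 0 ≤ S ∧ ∀ x, |deriv V0 x| ≤ S := by
  have h1 : Continuous (deriv V0) := h.smooth.continuous_deriv (by simp)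
  obtain ⟨S, hS⟩ := (h.compact.deriv).exists_bound_of_continuous h1
  exact ⟨S, (norm_nonneg _).trans (hS 0), hS⟩

theorem Vx_zero_left (h : Bump V0) {ξ u0 : ℝ} (hξ : 0 < ξ) (hξ1 : ξ ≤ 1) (hu : 1 ≤ u0) {u : ℝ}
    (hx : u ≤ 1 / 2) : Vx V0 ξ u0 u = 0 := by
  rcases lt_or_eq_of_le hx with hx | hx
  · apply h.zero
    left
    rw [div_lt_iff₀ hξ]
    nlinarith
  · -- boundary value by continuity
    have hcont : Continuous (Vx V0 ξ u0) := by
      unfold Vx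
      exact h.smooth.continuous.comp ((continuous_id.sub continuous_const).div_const _)
    have h3 : Set.EqOn (Vx V0 ξ u0) (fun _ => 0) (closure (Set.Iio u)) := by
      refine Set.EqOn.closure (fun x hx' => ?_) hcont continuous_const
      apply h.zero
      left
      rw [div_lt_iff₀ hξ]
      have : x < u := hx'
      nlinarith
    exact h3 (by rw [closure_Iio]; exact Set.mem_Iic.2 le_rfl)

theorem Vx_zero_right (h : Bump V0) {ξ u0 : ℝ} (hξ : 0 < ξ) (hξ1 : ξ ≤ 1) (hu : u0 ≤ 2) {u : ℝ}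
    (hx : 4 ≤ u) : Vx V0 ξ u0 u = 0 := by
  apply h.zero
  right
  rw [lt_div_iff₀ hξ]
  nlinarith

theorem hasDerivAt_Vx (h : Bump V0) {ξ u0 : ℝ} (_hξ : 0 < ξ) (u : ℝ) :
    HasDerivAt (fun u => ((Vx V0 ξ u0 u : ℝ) : ℂ))
      ((deriv V0 ((u - u0) / ξ) / ξ : ℝ) : ℂ) u := by
  have h1 : HasDerivAt V0 (deriv V0 ((u - u0) / ξ)) ((u - u0) / ξ) :=
    (h.smooth.differentiable (by simp)).differentiableAt.hasDerivAt
  have h2 : HasDerivAt (fun u : ℝ => (u - u0) / ξ) (1 / ξ) u :=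
    ((hasDerivAt_id u).sub_const u0).div_const ξ
  have h3 := h1.comp u h2
  rw [mul_one_div] at h3
  exact h3.ofReal_comp

end Bumps

theorem IVb_eq {V : ℝ → ℝ} (hVb : ∀ u, 4 ≤ u → V u = 0) :
    IVb (fun u => ((V u : ℝ) : ℂ)) 4 = ((IVr V : ℝ) : ℂ) := by
  rw [IVb, IVr]
  simp_rw [← Complex.ofReal_mul]
  rw [intervalIntegral.integral_of_le (by norm_num), integral_complex_ofReal]
  congr 1
  symm
  apply setIntegral_eq_of_subset_of_forall_sdiff_eq_zero measurableSet_Ioi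
  · exact Set.Ioc_subset_Ioi_self
  · intro u hu
    rw [Set.mem_sdiff, Set.mem_Ioi, Set.mem_Ioc, not_and_or, not_le] at hu
    rw [hVb u, zero_mul]
    rcases hu.2 with h | h
    · exact (h hu.1).elim
    · exact h.le

/-- **CM2**: `DISP.V3Hyp` -/
theorem v3Hyp : DISP.V3Hyp := by
  classical
  intro V0 hV0
  obtain ⟨S, hS0, hS⟩ := hV0.deriv_bound
  have hC3 : ∀ θ, 0 ≤ C3 (1 / 2) 4 θ := by
    intro θ
    have := M1_nonneg θ
    unfold C3; positivity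
  have h31 := hC3 (7 / 12)
  have h32 := hC3 1
  refine ⟨(1 + S) * (C3 (1 / 2) 4 (7 / 12) + C3 (1 / 2) 4 1) * 24, 1, by positivity, by norm_num,
    ?_⟩
  intro ξ u0 B hξ hξ1 hu hu2 hB D hD
  have hB0 : 0 < B := by linarith
  have hD0 := hD.ne_zero
  set M : ℝ := (1 + S) * ξ⁻¹ with hM
  have hξi : 1 ≤ ξ⁻¹ := (one_le_inv₀ hξ).2 hξ1
  have hb1 : ∀ u, ‖((Vx V0 ξ u0 u : ℝ) : ℂ)‖ ≤ M := by
    intro u
    rw [Complex.norm_real, Real.norm_eq_abs, Vx, abs_of_nonneg (hV0.nonneg _)]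
    refine (hV0.le_one _).trans ?_
    rw [hM]; nlinarith
  have hb2 : ∀ u, ‖((deriv V0 ((u - u0) / ξ) / ξ : ℝ) : ℂ)‖ ≤ M := by
    intro u
    rw [Complex.norm_real, Real.norm_eq_abs, abs_div, abs_of_pos hξ, hM, div_eq_mul_inv]
    have := hS ((u - u0) / ξ)
    gcongr
    linarith
  have hcd : Continuous fun u => ((deriv V0 ((u - u0) / ξ) / ξ : ℝ) : ℂ) := by
    have h1 : Continuous (deriv V0) := hV0.smooth.continuous_deriv (by simp)
    apply Complex.continuous_ofReal.comp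
    exact (h1.comp ((continuous_id.sub continuous_const).div_const _)).div_const _
  have h := V3_pairs' (a := 1 / 2) (b := 4) (by norm_num) (by norm_num) (radO_primary hD0)
    (radO_sqf hD0) (hasDerivAt_Vx hV0 hξ (u0 := u0)) hcd
    (fun u hu' => by rw [Vx_zero_left hV0 hξ hξ1 hu hu', Complex.ofReal_zero])
    (fun u hu' => by rw [Vx_zero_right hV0 hξ hξ1 hu2 hu', Complex.ofReal_zero]) hb1 hb2
    (X := 4 * B) hB le_rfl
  rw [IVb_eq (fun u hu' => Vx_zero_right hV0 hξ hξ1 hu2 hu')] at h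
  have e1 : (∑ b3 ∈ (PB (4 * B)).filter (fun b3 => IsCoprime b3 (radO D)),
      ∑ b1 ∈ SC (radO D) (4 * B),
        ((Vx V0 ξ u0 ((N b1 : ℝ) * (N b3 : ℝ) ^ 3 / B) : ℝ) : ℂ) *
          ((((N b1 : ℝ)) ^ (-(1 / 3) : ℝ) : ℝ) : ℂ)) = ((T3 (Vx V0 ξ u0) B D : ℝ) : ℂ) := by
    rw [T3_eq (fun u hu' => Vx_zero_right hV0 hξ hξ1 hu2 hu') hB0 hD]
    push_cast
    rfl
  rw [e1, ← Complex.ofReal_mul, ← Complex.ofReal_sub, Complex.norm_real, Real.norm_eq_abs,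
    dn_radO hD0] at h
  have e2 : kapP = C0 := rfl
  rw [e2]
  refine h.trans ?_
  have hcard : ((HB.D (radO D)).card : ℝ) ≤ tau D := by exact_mod_cast card_D_radO_le hD
  rw [hM, Real.rpow_neg_one]
  calc (1 + S) * ξ⁻¹ * (C3 (1 / 2) 4 (7 / 12) + C3 (1 / 2) 4 1) * (HB.D (radO D)).card *
        (24 * B ^ (1 / 3 : ℝ)) ≤ (1 + S) * ξ⁻¹ * (C3 (1 / 2) 4 (7 / 12) + C3 (1 / 2) 4 1) * tau D *
        (24 * B ^ (1 / 3 : ℝ)) := by gcongr
    _ = _ := by ring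

end Vale.Agent.P006.CM
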