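import Vale.Agent.P006.CM.CubeXi
import Vale.Agent.P006.CMX.Model
import Vale.Agent.P006.H103.BV

/-!
P006, block CM: smooth coefficients are of class G.
-/

namespace Vale.Agent.P006.CM

open MeasureTheory Set Filter Topology
open scoped ContDiff
open Vale.Agent.P006.KER (Nice)
open Vale.Agent.P006.CMX (al Cut)

variable {W : ℝ → ℂ} {a b : ℝ}

theorem nice_hasDerivAt (H : Nice W a b) (x : ℝ) : HasDerivAt W (deriv W x) x :=
  (H.smooth.differentiable (by simp) x).hasDerivAt

theorem nice_deriv_zero (H : Nice W a b) {x : ℝ} (hx : x < a ∨ b < x) : deriv W x = 0 :=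
  deriv_zero_out (p := a) (q := b) (fun u hu => by
    rcases hu with h | h
    · exact H.eq_zero_of_le h
    · exact H.eq_zero_of_ge h) hx

theorem nice_deriv_cont (H : Nice W a b) : Continuous (deriv W) :=
  H.smooth.continuous_deriv (by simp)

theorem nice_bounds (H : Nice W a b) : ∃ M : ℝ, 0 ≤ M ∧ (∀ x, ‖W x‖ ≤ M) ∧ ∀ x, ‖deriv W x‖ ≤ M := by
  obtain ⟨M0, h0⟩ := H.hcs.exists_bound_of_continuous H.cont
  obtain ⟨M1, h1⟩ := (H.hcs.deriv).exists_bound_of_continuous (nice_deriv_cont H)
  refine ⟨max M0 M1, le_max_of_le_left ((norm_nonneg _).trans (h0 0)),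
    fun x => (h0 x).trans (le_max_left _ _), fun x => (h1 x).trans (le_max_right _ _)⟩

/-- total variation of `n ↦ W (c n)` -/
theorem nice_BV (H : Nice W a b) {M : ℝ} (hM0 : ∀ x, ‖W x‖ ≤ M) (hM1 : ∀ x, ‖deriv W x‖ ≤ M)
    {c : ℝ} (hc : 0 ≤ c) : VR.BV (fun n : ℕ => W (c * n)) (M * (1 + b)) := by
  have hM : 0 ≤ M := (norm_nonneg _).trans (hM0 0)
  have hb : 0 < b := H.pos.trans_le H.le
  have hcd := nice_deriv_cont H
  have hint : ∀ x y : ℝ, IntervalIntegrable (fun u => ‖deriv W u‖) volume x y :=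
    fun x y => (hcd.norm).intervalIntegrable _ _
  intro n
  have h1 : ∀ j : ℕ, ‖W (c * j) - W (c * (j + 1 : ℕ))‖ ≤
      ∫ u in (c * j)..(c * ((j + 1 : ℕ) : ℝ)), ‖deriv W u‖ := by
    intro j
    have hle : c * (j : ℝ) ≤ c * ((j + 1 : ℕ) : ℝ) := by
      push_cast
      nlinarith
    rw [norm_sub_rev, ← intervalIntegral.integral_eq_sub_of_hasDerivAt
      (fun u _ => nice_hasDerivAt H u) (hcd.intervalIntegrable _ _)]
    exact intervalIntegral.norm_integral_le_integral_norm hle
  have h2 : ∑ j ∈ Finset.range n, ‖W (c * j) - W (c * (j + 1 : ℕ))‖ ≤ M * b := by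
    calc ∑ j ∈ Finset.range n, ‖W (c * j) - W (c * (j + 1 : ℕ))‖ ≤
        ∑ j ∈ Finset.range n, ∫ u in (c * j)..(c * ((j + 1 : ℕ) : ℝ)), ‖deriv W u‖ :=
          Finset.sum_le_sum fun j _ => h1 j
      _ = ∫ u in (c * ((0 : ℕ) : ℝ))..(c * (n : ℝ)), ‖deriv W u‖ := by
          exact intervalIntegral.sum_integral_adjacent_intervals
            (a := fun j : ℕ => c * (j : ℝ)) (fun k _ => hint _ _)
      _ = ∫ u in Ioc (0 : ℝ) (c * n), ‖deriv W u‖ := by
          rw [Nat.cast_zero, mul_zero, intervalIntegral.integral_of_le (by positivity)]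
      _ ≤ ∫ u in Ioi (0 : ℝ), ‖deriv W u‖ := by
          apply setIntegral_mono_set
          · exact ((hcd.norm).integrable_of_hasCompactSupport (H.hcs.deriv.norm)).integrableOn
          · exact Eventually.of_forall fun u => norm_nonneg _
          · exact Ioc_subset_Ioi_self.eventuallyLE
      _ ≤ M * (b - 0) := by
          apply int_le_of_supp hb.le
          · intro u; rw [norm_norm]; exact hM1 u
          · intro u hu
            rw [nice_deriv_zero H, norm_zero]
            rcases hu with h | h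
            · left; linarith [H.pos]
            · right; exact h
      _ = M * b := by ring
  have h3 := hM0 (c * n)
  show ‖W (c * n)‖ + ∑ j ∈ Finset.range n, ‖W (c * j) - W (c * (j + 1 : ℕ))‖ ≤ M * (1 + b)
  linarith

theorem not_dvd_of_lt {m p : O} (hm : Primary m) (hp : Prime p) (hpp : Primary p)
    (h : ∀ q ∈ pdv m, N q < N p) : ¬ p ∣ m := by
  intro hd
  have := h p ((mem_pdv hm.ne_zero).2 ⟨hpp, hp, hd⟩)
  omega

theorem inP_mul_prime {m p : O} (hm : Primary m) (hp : Prime p) (hpp : Primary p)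
    (h : ¬ p ∣ m) : InP (m * p) ↔ InP m := by
  constructor
  · rintro ⟨_, hs⟩
    exact ⟨hm, hs.squarefree_of_dvd (dvd_mul_right m p)⟩
  · rintro ⟨_, hs⟩
    refine ⟨hm.mul hpp, ?_⟩
    rw [mul_comm]
    exact squarefree_prime_mul hp hs h

/-- smooth coefficients `1_{InP a} W(N a/A)` are of class G -/
theorem classG_al (H : Nice W a b) {M : ℝ} (hM0 : ∀ x, ‖W x‖ ≤ M) (hM1 : ∀ x, ‖deriv W x‖ ≤ M)
    {A X : ℝ} (hA : 0 < A) (hX : b * A ≤ X) : ClassG (al W A) X (M * (1 + b)) := by
  have hM : 0 ≤ M := (norm_nonneg _).trans (hM0 0)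
  have hb : 0 < b := H.pos.trans_le H.le
  refine ⟨?_, ?_, ?_⟩
  · intro x hx
    rw [al] at hx
    split_ifs at hx with h
    · refine ⟨h.1, h.2, ?_⟩
      by_contra hcon
      push Not at hcon
      apply hx
      apply H.eq_zero_of_ge
      rw [lt_div_iff₀ hA]
      linarith
    · exact absurd rfl hx
  · intro x
    rw [al]
    split_ifs
    · have := hM0 (N x / A)
      nlinarith
    · rw [norm_zero]; positivity
  · intro m hm
    by_cases hin : InP m
    · refine ⟨fun n => W ((N m : ℝ) / A * n), nice_BV H hM0 hM1 (by positivity), ?_⟩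
      intro p hp hpp hq
      rw [al, if_pos ((inP_mul_prime hm hp hpp (not_dvd_of_lt hm hp hpp hq)).2 hin)]
      congr 1
      rw [N_mul]
      push_cast
      ring
    · refine ⟨fun _ => 0, ?_, ?_⟩
      · intro n
        simp
        positivity
      · intro p hp hpp hq
        rw [al, if_neg (fun h => hin ((inP_mul_prime hm hp hpp
          (not_dvd_of_lt hm hp hpp hq)).1 h))]

theorem al_supp (H : Nice W a b) (ha : 1 < a) (hb : b ≤ 2) {A : ℝ} (hA : 0 < A) (x : O)
    (hx : al W A x ≠ 0) : A < (N x : ℝ) ∧ (N x : ℝ) ≤ 2 * A := by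
  rw [al] at hx
  split_ifs at hx with h
  · constructor
    · by_contra hcon
      push Not at hcon
      apply hx
      apply H.eq_zero_of_le
      rw [div_lt_iff₀ hA]
      nlinarith
    · by_contra hcon
      push Not at hcon
      apply hx
      apply H.eq_zero_of_ge
      rw [lt_div_iff₀ hA]
      nlinarith
  · exact absurd rfl hx

end Vale.Agent.P006.CM
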