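import Mathlib
import Vale.Agent.P006.CR.Basic

/-!
P006, block CM (constant modulus), part 1: the Fourier transform of a radial function on `ℂ`
with respect to `e(-Tr(z y))` and the integral of its values at cubes.
-/

namespace Vale.Agent.P006.CM

open MeasureTheory Set
open scoped FourierTransform SchwartzMap ComplexConjugate

/-- Fourier transform on `ℂ` with respect to the character `e(-Tr(z y))`. -/
noncomputable def Fhat (f : ℂ → ℂ) (y : ℂ) : ℂ := ∫ z : ℂ, f z * e (-(TrC (z * y)))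

theorem Fhat_eq_fourier (f : ℂ → ℂ) (y : ℂ) : Fhat f y = 𝓕 f (2 * conj y) := by
  rw [Real.fourier_eq', Fhat]
  congr 1
  ext z
  rw [smul_eq_mul, mul_comm]
  congr 1
  rw [e]
  congr 1
  rw [TrC]
  have : (inner ℝ z (2 * conj y) : ℝ) = 2 * (z * y).re := by
    rw [Complex.inner]
    simp [Complex.mul_re]
    ring
  rw [this]
  push_cast
  ring

/-- rotation invariance -/
theorem Fhat_radial {f : ℂ → ℂ} (hf : ∀ z, f z = f (‖z‖ : ℂ)) (y : ℂ) :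
    Fhat f y = Fhat f (‖y‖ : ℂ) := by
  by_cases hy : y = 0
  · simp [hy]
  have hy' : ‖y‖ ≠ 0 := norm_ne_zero_iff.2 hy
  set u : ℂ := (‖y‖ : ℂ) / y with hu
  have hun : ‖u‖ = 1 := by
    rw [hu, norm_div, Complex.norm_real, norm_norm, div_self hy']
  let c : Circle := ⟨u, by simpa [Submonoid.unitSphere] using hun⟩
  have hmp : MeasurePreserving (rotation c : ℂ → ℂ) volume volume :=
    (rotation c).measurePreserving
  have h1 := hmp.integral_comp (rotation c).toHomeomorph.measurableEmbedding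
    (fun z : ℂ => f z * e (-(TrC (z * y))))
  rw [Fhat, Fhat, ← h1]
  congr 1
  ext z
  simp only [rotation_apply]
  have h2 : ((c : ℂ)) = u := rfl
  have h3 : f (u * z) = f z := by
    rw [hf (u * z), hf z, norm_mul, hun, one_mul]
  rw [h2, h3]
  congr 3
  rw [hu]
  field_simp

/-- the symmetric bilinear form `Tr(z y)` -/
noncomputable def trL : ℂ →ₗ[ℝ] ℂ →ₗ[ℝ] ℝ :=
  (LinearMap.mul ℝ ℂ).compr₂ ((2 : ℝ) • Complex.reLm)

theorem trL_apply (z y : ℂ) : trL z y = TrC (z * y) := by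
  simp [trL, TrC]

theorem Fhat_eq_vector (f : ℂ → ℂ) (y : ℂ) :
    Fhat f y = VectorFourier.fourierIntegral Real.fourierChar (volume : Measure ℂ) trL f y := by
  rw [VectorFourier.fourierIntegral, Fhat]
  congr 1
  ext z
  rw [Circle.smul_def, smul_eq_mul, mul_comm, Real.fourierChar_apply, e, trL_apply]
  congr 2
  push_cast
  ring

theorem integral_Fhat_mul {f g : ℂ → ℂ} (hf : Integrable f) (hg : Integrable g) :
    ∫ y : ℂ, Fhat f y * g y = ∫ z : ℂ, f z * Fhat g z := by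
  have hflip := VectorFourier.integral_fourierIntegral_smul_eq_flip
    (μ := (volume : Measure ℂ)) (ν := (volume : Measure ℂ)) (L := trL)
    Real.continuous_fourierChar (by simp only [trL_apply]; unfold TrC; fun_prop) hf hg
  have hfl : trL.flip = trL := by
    apply LinearMap.ext; intro x; apply LinearMap.ext; intro y
    rw [LinearMap.flip_apply, trL_apply, trL_apply, mul_comm]
  rw [hfl] at hflip
  simpa only [Fhat_eq_vector, smul_eq_mul] using hflip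

section gaussian

theorem integrable_gaussian {s : ℝ} (hs : 0 < s) :
    Integrable (fun v : ℂ => Complex.exp (-(s : ℂ) * (‖v‖ : ℂ) ^ 2)) := by
  have hs' : 0 < (s : ℂ).re := by rwa [Complex.ofReal_re]
  have := GaussianFourier.integrable_cexp_neg_mul_sq_norm_add (V := ℂ) hs' 0 0
  simpa using this

theorem Fhat_gaussian {s : ℝ} (hs : 0 < s) (z : ℂ) :
    Fhat (fun v : ℂ => Complex.exp (-(s : ℂ) * (‖v‖ : ℂ) ^ 2)) z =
      ((Real.pi / s : ℝ) : ℂ) * Complex.exp (-((4 * Real.pi ^ 2 * ‖z‖ ^ 2 / s : ℝ) : ℂ)) := by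
  have hs' : 0 < (s : ℂ).re := by rwa [Complex.ofReal_re]
  rw [Fhat_eq_fourier, fourier_gaussian_innerProductSpace hs']
  have h1 : (Module.finrank ℝ ℂ / 2 : ℂ) = 1 := by simp
  rw [h1, Complex.cpow_one]
  have h2 : ‖(2 * conj z : ℂ)‖ = 2 * ‖z‖ := by simp
  rw [h2]
  congr 1
  · push_cast; ring
  · congr 1
    push_cast
    ring

/-- multiplication formula against a Gaussian -/
theorem integral_Fhat_mul_gaussian {f : ℂ → ℂ} (hf : Integrable f) {s : ℝ} (hs : 0 < s) :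
    ∫ y : ℂ, Fhat f y * Complex.exp (-(s : ℂ) * (‖y‖ : ℂ) ^ 2) =
      ∫ z : ℂ, f z * (((Real.pi / s : ℝ) : ℂ) *
        Complex.exp (-((4 * Real.pi ^ 2 * ‖z‖ ^ 2 / s : ℝ) : ℂ))) := by
  rw [integral_Fhat_mul hf (integrable_gaussian hs)]
  congr 1
  ext z
  rw [Fhat_gaussian hs]

end gaussian


/-- polar coordinates for radial functions on `ℂ` -/
theorem integral_radial (F : ℝ → ℂ) :
    ∫ z : ℂ, F ‖z‖ = 2 * Real.pi * ∫ r in Ioi (0 : ℝ), (r : ℂ) * F r := by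
  rw [integral_fun_norm_addHaar volume F]
  have h1 : (volume : Measure ℂ).real (Metric.ball 0 1) = Real.pi := by
    rw [Measure.real, Complex.volume_ball]
    simp
  rw [h1, Complex.finrank_real_complex]
  simp only [Nat.add_one_sub_one, pow_one, Complex.real_smul, nsmul_eq_mul]
  push_cast
  ring

/-- Fubini for a nonnegative kernel -/
theorem swap_kernel (a : ℝ → ℂ) (K : ℝ → ℝ → ℝ) (κ : ℝ → ℝ)
    (ha : AEStronglyMeasurable a (volume.restrict (Ioi 0)))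
    (hK : AEStronglyMeasurable (Function.uncurry K)
      ((volume.restrict (Ioi (0 : ℝ))).prod (volume.restrict (Ioi (0 : ℝ)))))
    (hK0 : ∀ u ∈ Ioi (0 : ℝ), ∀ s ∈ Ioi (0 : ℝ), 0 ≤ K u s)
    (hKi : ∀ u ∈ Ioi (0 : ℝ), IntegrableOn (K u) (Ioi 0))
    (hKv : ∀ u ∈ Ioi (0 : ℝ), ∫ s in Ioi (0 : ℝ), K u s = κ u)
    (hint : IntegrableOn (fun u => a u * κ u) (Ioi 0)) :
    ∫ u in Ioi (0 : ℝ), a u * κ u = ∫ s in Ioi (0 : ℝ), ∫ u in Ioi (0 : ℝ), a u * K u s := by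
  have hm : AEStronglyMeasurable (fun p : ℝ × ℝ => a p.1 * (K p.1 p.2 : ℂ))
      ((volume.restrict (Ioi (0 : ℝ))).prod (volume.restrict (Ioi (0 : ℝ)))) := by
    refine AEStronglyMeasurable.mul (ha.comp_fst) ?_
    exact Complex.continuous_ofReal.comp_aestronglyMeasurable hK
  have hI : Integrable (fun p : ℝ × ℝ => a p.1 * (K p.1 p.2 : ℂ))
      ((volume.restrict (Ioi (0 : ℝ))).prod (volume.restrict (Ioi (0 : ℝ)))) := by
    rw [integrable_prod_iff hm]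
    refine ⟨?_, ?_⟩
    · filter_upwards [ae_restrict_mem measurableSet_Ioi] with u hu
      exact (hKi u hu).ofReal.const_mul (a u)
    · refine (hint.norm).congr ?_
      filter_upwards [ae_restrict_mem measurableSet_Ioi] with u hu
      have h1 : ∫ s in Ioi (0 : ℝ), ‖a u * (K u s : ℂ)‖ = ∫ s in Ioi (0 : ℝ), ‖a u‖ * K u s := by
        refine setIntegral_congr_fun measurableSet_Ioi (fun s hs => ?_)
        simp only [norm_mul, Complex.norm_real, Real.norm_of_nonneg (hK0 u hu s hs)]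
      have hk : 0 ≤ κ u := by
        rw [← hKv u hu]
        exact setIntegral_nonneg measurableSet_Ioi (hK0 u hu)
      rw [h1, integral_const_mul, hKv u hu, norm_mul, Complex.norm_real, Real.norm_of_nonneg hk]
  have h2 := integral_integral_swap (f := fun u s => a u * (K u s : ℂ)) hI
  rw [← h2]
  refine setIntegral_congr_fun measurableSet_Ioi (fun u hu => ?_)
  rw [integral_const_mul, ← hKv u hu]
  congr 1
  rw [← integral_complex_ofReal]


theorem kernel_int_one {u : ℝ} (hu : 0 < u) :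
    ∫ s in Ioi (0 : ℝ), u * s ^ (-(1 / 3) : ℝ) * Real.exp (-(s * u ^ 2)) =
      Real.Gamma (2 / 3) * u ^ (-(1 / 3) : ℝ) := by
  have h := Real.integral_rpow_mul_exp_neg_mul_Ioi (a := 2 / 3) (r := u ^ 2) (by norm_num)
    (by positivity)
  have h1 : ∫ s in Ioi (0 : ℝ), u * s ^ (-(1 / 3) : ℝ) * Real.exp (-(s * u ^ 2)) =
      u * ∫ s in Ioi (0 : ℝ), s ^ ((2 / 3 : ℝ) - 1) * Real.exp (-(u ^ 2 * s)) := by
    rw [← integral_const_mul]
    refine setIntegral_congr_fun measurableSet_Ioi (fun s hs => ?_)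
    rw [mul_assoc, mul_comm s (u ^ 2)]
    norm_num
  rw [h1, h, one_div, ← Real.rpow_natCast, ← Real.rpow_neg hu.le, ← Real.rpow_mul hu.le]
  rw [show u * (u ^ (-((2 : ℕ) : ℝ) * (2 / 3)) * Real.Gamma (2 / 3)) =
    Real.Gamma (2 / 3) * (u ^ (1 : ℝ) * u ^ (-((2 : ℕ) : ℝ) * (2 / 3))) by
      rw [Real.rpow_one]; ring, ← Real.rpow_add hu]
  congr 2
  norm_num

theorem kernel_integrable_one {u : ℝ} (hu : 0 < u) :
    IntegrableOn (fun s : ℝ => u * s ^ (-(1 / 3) : ℝ) * Real.exp (-(s * u ^ 2))) (Ioi 0) := by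
  have h := kernel_int_one hu
  by_contra hcon
  rw [integral_undef hcon] at h
  have h2 : 0 < Real.Gamma (2 / 3) * u ^ (-(1 / 3) : ℝ) :=
    mul_pos (Real.Gamma_pos_of_pos (by norm_num)) (Real.rpow_pos_of_pos hu _)
  linarith

theorem kernel_int_two {r : ℝ} (hr : 0 < r) :
    ∫ s in Ioi (0 : ℝ), r * s ^ (-(1 / 3) : ℝ) * ((Real.pi / s) *
      Real.exp (-(4 * Real.pi ^ 2 * r ^ 2 / s))) =
      Real.pi * Real.Gamma (1 / 3) * (2 * Real.pi) ^ (-(2 / 3) : ℝ) * r ^ (1 / 3 : ℝ) := by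
  have h := Real.integral_rpow_mul_exp_neg_mul_Ioi (a := 1 / 3) (r := 4 * Real.pi ^ 2 * r ^ 2)
    (by norm_num) (by positivity)
  have hs := integral_comp_rpow_Ioi (fun s : ℝ => r * s ^ (-(1 / 3) : ℝ) * ((Real.pi / s) *
      Real.exp (-(4 * Real.pi ^ 2 * r ^ 2 / s)))) (p := -1) (by norm_num)
  rw [← hs]
  have h1 : ∫ x in Ioi (0 : ℝ), (|(-1 : ℝ)| * x ^ ((-1 : ℝ) - 1)) •
      (fun s : ℝ => r * s ^ (-(1 / 3) : ℝ) * ((Real.pi / s) *
      Real.exp (-(4 * Real.pi ^ 2 * r ^ 2 / s)))) (x ^ (-1 : ℝ)) =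
      (Real.pi * r) * ∫ x in Ioi (0 : ℝ), x ^ ((1 / 3 : ℝ) - 1) *
        Real.exp (-(4 * Real.pi ^ 2 * r ^ 2 * x)) := by
    rw [← integral_const_mul]
    refine setIntegral_congr_fun measurableSet_Ioi (fun x hx => ?_)
    have hx : 0 < x := hx
    simp only [smul_eq_mul]
    rw [abs_neg, abs_one, one_mul, ← Real.rpow_mul hx.le]
    have e1 : Real.pi / x ^ (-1 : ℝ) = Real.pi * x ^ (1 : ℝ) := by
      rw [Real.rpow_neg hx.le, div_inv_eq_mul]
    have e2 : 4 * Real.pi ^ 2 * r ^ 2 / x ^ (-1 : ℝ) = 4 * Real.pi ^ 2 * r ^ 2 * x := by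
      rw [Real.rpow_neg hx.le, div_inv_eq_mul, Real.rpow_one]
    rw [e1, e2]
    have e3 : x ^ ((1 / 3 : ℝ) - 1) = x ^ ((-1 : ℝ) - 1) * x ^ ((-1 : ℝ) * (-(1 / 3))) *
        x ^ (1 : ℝ) := by
      rw [← Real.rpow_add hx, ← Real.rpow_add hx]
      norm_num
    rw [e3]
    ring
  rw [h1, h]
  have h2 : (1 / (4 * Real.pi ^ 2 * r ^ 2)) ^ (1 / 3 : ℝ) =
      (2 * Real.pi) ^ (-(2 / 3) : ℝ) * r ^ (-(2 / 3) : ℝ) := by
    rw [← Real.mul_rpow (by positivity) hr.le]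
    rw [show 1 / (4 * Real.pi ^ 2 * r ^ 2) = ((2 * Real.pi) * r) ^ (-(2 : ℝ)) by
      rw [Real.rpow_neg (by positivity), Real.rpow_two]; field_simp; norm_num]
    rw [← Real.rpow_mul (by positivity)]
    norm_num
  rw [h2]
  have h3 : r ^ (1 / 3 : ℝ) = r ^ (1 : ℝ) * r ^ (-(2 / 3) : ℝ) := by
    rw [← Real.rpow_add hr]; norm_num
  rw [h3, Real.rpow_one]
  ring

theorem kernel_integrable_two {r : ℝ} (hr : 0 < r) :
    IntegrableOn (fun s : ℝ => r * s ^ (-(1 / 3) : ℝ) * ((Real.pi / s) *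
      Real.exp (-(4 * Real.pi ^ 2 * r ^ 2 / s)))) (Ioi 0) := by
  have h := kernel_int_two hr
  by_contra hcon
  rw [integral_undef hcon] at h
  have h2 : 0 < Real.pi * Real.Gamma (1 / 3) * (2 * Real.pi) ^ (-(2 / 3) : ℝ) *
      r ^ (1 / 3 : ℝ) := by
    have := Real.Gamma_pos_of_pos (show (0 : ℝ) < 1 / 3 by norm_num)
    positivity
  linarith


/-- the radial substitution `u = r ^ 3` -/
theorem integral_radial_cube (Φ : ℝ → ℂ) :
    ∫ z : ℂ, Φ (‖z‖ ^ 3) = (2 * Real.pi / 3) * ∫ u in Ioi (0 : ℝ), Φ u * ((u ^ (-(1 / 3) : ℝ) : ℝ) : ℂ) := by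
  rw [integral_radial (fun r => Φ (r ^ 3))]
  have hs := integral_comp_rpow_Ioi (fun u : ℝ => Φ u * ((u ^ (-(1 / 3) : ℝ) : ℝ) : ℂ)) (p := 3)
    (by norm_num)
  rw [← hs]
  have h1 : ∫ x in Ioi (0 : ℝ), (|(3 : ℝ)| * x ^ ((3 : ℝ) - 1)) •
      (fun u : ℝ => Φ u * ((u ^ (-(1 / 3) : ℝ) : ℝ) : ℂ)) (x ^ (3 : ℝ)) =
      3 * ∫ r in Ioi (0 : ℝ), (r : ℂ) * Φ (r ^ 3) := by
    rw [← integral_const_mul]
    refine setIntegral_congr_fun measurableSet_Ioi (fun x hx => ?_)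
    have hx : 0 < x := hx
    simp only [Complex.real_smul]
    rw [← Real.rpow_mul hx.le]
    have e1 : x ^ (3 : ℝ) = x ^ 3 := by
      rw [← Real.rpow_natCast]; norm_num
    have e2 : (|(3 : ℝ)| * x ^ ((3 : ℝ) - 1)) * x ^ ((3 : ℝ) * (-(1 / 3))) = 3 * x := by
      rw [abs_of_pos (by norm_num : (0 : ℝ) < 3), mul_assoc, ← Real.rpow_add hx]
      norm_num
    rw [e1]
    have e3 : ((|(3 : ℝ)| * x ^ ((3 : ℝ) - 1) : ℝ) : ℂ) *
        (Φ (x ^ 3) * ((x ^ ((3 : ℝ) * (-(1 / 3))) : ℝ) : ℂ)) =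
        (((|(3 : ℝ)| * x ^ ((3 : ℝ) - 1)) * x ^ ((3 : ℝ) * (-(1 / 3))) : ℝ) : ℂ) * Φ (x ^ 3) := by
      push_cast; ring
    rw [e3, e2]
    push_cast; ring
  rw [h1]
  ring

/-- the constant `(1/6) (2π)^{4/3} Γ(1/3) / Γ(2/3)` -/
noncomputable def kapC : ℝ :=
  (1 / 6) * (2 * Real.pi) ^ (4 / 3 : ℝ) * Real.Gamma (1 / 3) / Real.Gamma (2 / 3)

/-- The integral of the Fourier transform of a radial function over the cubes. -/
theorem integral_Fhat_cube {f : ℂ → ℂ} {φ : ℝ → ℂ} (hf : ∀ z, f z = φ ‖z‖)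
    (hfi : Integrable f)
    (hΦ : IntegrableOn (fun u : ℝ => Fhat f u * ((u ^ (-(1 / 3) : ℝ) : ℝ) : ℂ)) (Ioi 0))
    (hφ : IntegrableOn (fun r : ℝ => φ r * ((r ^ (1 / 3 : ℝ) : ℝ) : ℂ)) (Ioi 0))
    (hφm : AEStronglyMeasurable φ (volume.restrict (Ioi 0)))
    (hΦm : AEStronglyMeasurable (fun u : ℝ => Fhat f u) (volume.restrict (Ioi 0))) :
    ∫ z : ℂ, Fhat f (z ^ 3) =
      kapC * ∫ r in Ioi (0 : ℝ), φ r * ((r ^ (1 / 3 : ℝ) : ℝ) : ℂ) := by
  have hrad : ∀ y : ℂ, Fhat f y = Fhat f (‖y‖ : ℂ) := Fhat_radial (fun z => by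
    rw [hf z, hf, Complex.norm_real, norm_norm])
  have h1 : ∫ z : ℂ, Fhat f (z ^ 3) = ∫ z : ℂ, (fun u : ℝ => Fhat f (u : ℂ)) (‖z‖ ^ 3) := by
    congr 1; ext z
    rw [hrad (z ^ 3), norm_pow]
  rw [h1, integral_radial_cube (fun u : ℝ => Fhat f (u : ℂ))]
  -- multiplication formula in polar coordinates
  have hmul : ∀ s : ℝ, 0 < s →
      ∫ u in Ioi (0 : ℝ), (u : ℂ) * (Fhat f u * Complex.exp (-(s : ℂ) * (u : ℂ) ^ 2)) =
      ∫ r in Ioi (0 : ℝ), (r : ℂ) * (φ r * (((Real.pi / s : ℝ) : ℂ) *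
        Complex.exp (-((4 * Real.pi ^ 2 * r ^ 2 / s : ℝ) : ℂ)))) := by
    intro s hs
    have h2 := integral_Fhat_mul_gaussian hfi hs
    have h3 : ∫ y : ℂ, Fhat f y * Complex.exp (-(s : ℂ) * (‖y‖ : ℂ) ^ 2) =
        ∫ y : ℂ, (fun u : ℝ => Fhat f (u : ℂ) * Complex.exp (-(s : ℂ) * (u : ℂ) ^ 2)) ‖y‖ := by
      congr 1; ext y; rw [hrad y]
    have h4 : ∫ z : ℂ, f z * (((Real.pi / s : ℝ) : ℂ) *
        Complex.exp (-((4 * Real.pi ^ 2 * ‖z‖ ^ 2 / s : ℝ) : ℂ))) =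
        ∫ z : ℂ, (fun r : ℝ => φ r * (((Real.pi / s : ℝ) : ℂ) *
        Complex.exp (-((4 * Real.pi ^ 2 * r ^ 2 / s : ℝ) : ℂ)))) ‖z‖ := by
      congr 1; ext z; rw [hf z]
    rw [h3, h4, integral_radial (fun u : ℝ => Fhat f (u : ℂ) * Complex.exp (-(s : ℂ) * (u : ℂ) ^ 2)),
      integral_radial (fun r : ℝ => φ r * (((Real.pi / s : ℝ) : ℂ) *
        Complex.exp (-((4 * Real.pi ^ 2 * r ^ 2 / s : ℝ) : ℂ))))] at h2
    have hpi : (2 * Real.pi : ℂ) ≠ 0 := by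
      have := Real.pi_pos
      exact_mod_cast (by positivity : (2 * Real.pi : ℝ) ≠ 0)
    exact mul_left_cancel₀ hpi h2
  -- first swap
  have hG23 : (0 : ℝ) < Real.Gamma (2 / 3) := Real.Gamma_pos_of_pos (by norm_num)
  have hs1 := swap_kernel (fun u => Fhat f (u : ℂ))
    (fun u s => u * s ^ (-(1 / 3) : ℝ) * Real.exp (-(s * u ^ 2)))
    (fun u => Real.Gamma (2 / 3) * u ^ (-(1 / 3) : ℝ)) hΦm
    (by
      apply Measurable.aestronglyMeasurable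
      simp only [Function.uncurry_def]
      fun_prop)
    (fun u hu s hs => by
      have hu : 0 < u := hu
      have hs : 0 < s := hs
      positivity)
    (fun u hu => kernel_integrable_one hu)
    (fun u hu => kernel_int_one hu)
    (by
      refine (hΦ.const_mul (Real.Gamma (2 / 3) : ℂ)).congr ?_
      filter_upwards with u
      push_cast; ring)
  have hs2 := swap_kernel φ
    (fun r s => r * s ^ (-(1 / 3) : ℝ) * ((Real.pi / s) *
      Real.exp (-(4 * Real.pi ^ 2 * r ^ 2 / s))))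
    (fun r => Real.pi * Real.Gamma (1 / 3) * (2 * Real.pi) ^ (-(2 / 3) : ℝ) * r ^ (1 / 3 : ℝ)) hφm
    (by
      apply Measurable.aestronglyMeasurable
      simp only [Function.uncurry_def]
      fun_prop)
    (fun r hr s hs => by
      have hr : 0 < r := hr
      have hs : 0 < s := hs
      have := Real.pi_pos
      positivity)
    (fun r hr => kernel_integrable_two hr)
    (fun r hr => kernel_int_two hr)
    (by
      refine (hφ.const_mul ((Real.pi * Real.Gamma (1 / 3) * (2 * Real.pi) ^ (-(2 / 3) : ℝ) : ℝ)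
        : ℂ)).congr ?_
      filter_upwards with u
      push_cast; ring)
  have hinner : ∀ s ∈ Ioi (0 : ℝ),
      ∫ u in Ioi (0 : ℝ), Fhat f (u : ℂ) *
        ((u * s ^ (-(1 / 3) : ℝ) * Real.exp (-(s * u ^ 2)) : ℝ) : ℂ) =
      ∫ r in Ioi (0 : ℝ), φ r * ((r * s ^ (-(1 / 3) : ℝ) * ((Real.pi / s) *
      Real.exp (-(4 * Real.pi ^ 2 * r ^ 2 / s))) : ℝ) : ℂ) := by
    intro s hs
    have h5 := hmul s hs
    have h6 : ∫ u in Ioi (0 : ℝ), Fhat f (u : ℂ) *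
        ((u * s ^ (-(1 / 3) : ℝ) * Real.exp (-(s * u ^ 2)) : ℝ) : ℂ) =
        ((s ^ (-(1 / 3) : ℝ) : ℝ) : ℂ) *
        ∫ u in Ioi (0 : ℝ), (u : ℂ) * (Fhat f u * Complex.exp (-(s : ℂ) * (u : ℂ) ^ 2)) := by
      rw [← integral_const_mul]
      congr 1; ext u
      push_cast
      rw [show -((s : ℂ) * (u : ℂ) ^ 2) = -(s : ℂ) * (u : ℂ) ^ 2 by ring]
      ring
    have h7 : ∫ r in Ioi (0 : ℝ), φ r * ((r * s ^ (-(1 / 3) : ℝ) * ((Real.pi / s) *
      Real.exp (-(4 * Real.pi ^ 2 * r ^ 2 / s))) : ℝ) : ℂ) =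
        ((s ^ (-(1 / 3) : ℝ) : ℝ) : ℂ) *
        ∫ r in Ioi (0 : ℝ), (r : ℂ) * (φ r * (((Real.pi / s : ℝ) : ℂ) *
        Complex.exp (-((4 * Real.pi ^ 2 * r ^ 2 / s : ℝ) : ℂ)))) := by
      rw [← integral_const_mul]
      congr 1; ext r
      push_cast
      ring
    rw [h6, h7, h5]
  have hfin : ∫ u in Ioi (0 : ℝ), Fhat f (u : ℂ) *
      ((Real.Gamma (2 / 3) * u ^ (-(1 / 3) : ℝ) : ℝ) : ℂ) =
      ∫ r in Ioi (0 : ℝ), φ r * ((Real.pi * Real.Gamma (1 / 3) * (2 * Real.pi) ^ (-(2 / 3) : ℝ) *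
        r ^ (1 / 3 : ℝ) : ℝ) : ℂ) := by
    rw [hs1, hs2]
    exact setIntegral_congr_fun measurableSet_Ioi hinner
  have h8 : ∫ u in Ioi (0 : ℝ), Fhat f (u : ℂ) *
      ((Real.Gamma (2 / 3) * u ^ (-(1 / 3) : ℝ) : ℝ) : ℂ) =
      (Real.Gamma (2 / 3) : ℂ) * ∫ u in Ioi (0 : ℝ), Fhat f (u : ℂ) *
        ((u ^ (-(1 / 3) : ℝ) : ℝ) : ℂ) := by
    rw [← integral_const_mul]
    congr 1; ext u; push_cast; ring
  have h9 : ∫ r in Ioi (0 : ℝ), φ r * ((Real.pi * Real.Gamma (1 / 3) *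
      (2 * Real.pi) ^ (-(2 / 3) : ℝ) * r ^ (1 / 3 : ℝ) : ℝ) : ℂ) =
      ((Real.pi * Real.Gamma (1 / 3) * (2 * Real.pi) ^ (-(2 / 3) : ℝ) : ℝ) : ℂ) *
      ∫ r in Ioi (0 : ℝ), φ r * ((r ^ (1 / 3 : ℝ) : ℝ) : ℂ) := by
    rw [← integral_const_mul]
    congr 1; ext u; push_cast; ring
  rw [h8, h9] at hfin
  have hG23' : (Real.Gamma (2 / 3) : ℂ) ≠ 0 := by exact_mod_cast hG23.ne'
  have h10 : ∫ u in Ioi (0 : ℝ), Fhat f (u : ℂ) * ((u ^ (-(1 / 3) : ℝ) : ℝ) : ℂ) =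
      ((Real.pi * Real.Gamma (1 / 3) * (2 * Real.pi) ^ (-(2 / 3) : ℝ) : ℝ) : ℂ) *
      (∫ r in Ioi (0 : ℝ), φ r * ((r ^ (1 / 3 : ℝ) : ℝ) : ℂ)) / (Real.Gamma (2 / 3) : ℂ) := by
    rw [eq_div_iff hG23', mul_comm]; exact hfin
  rw [h10, kapC]
  have h11 : (2 * Real.pi) ^ (4 / 3 : ℝ) =
      (2 * Real.pi) ^ 2 * (2 * Real.pi) ^ (-(2 / 3) : ℝ) := by
    rw [← Real.rpow_natCast, ← Real.rpow_add (by positivity)]
    norm_num
  rw [h11]
  push_cast
  ring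

end Vale.Agent.P006.CM
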