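import Mathlib
import Vale.Agent.P006.CM.Kernel

/-!
P006, block CM, part 2: Schwartz versions.
-/

namespace Vale.Agent.P006.CM

open MeasureTheory Set
open scoped FourierTransform SchwartzMap ComplexConjugate

/-- the real-linear equivalence `z ↦ 2 * conj z` of `ℂ` -/
noncomputable def twoConj : ℂ ≃L[ℝ] ℂ :=
  (ContinuousLinearEquiv.smulLeft (Units.mk0 (2 : ℝ) two_ne_zero)).trans
    Complex.conjCLE

theorem twoConj_apply (z : ℂ) : twoConj z = 2 * conj z := by
  have h : twoConj z = conj ((2 : ℝ) • z) := by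
    simp [twoConj, ContinuousLinearEquiv.smulLeft]
  rw [h, Complex.real_smul, map_mul, Complex.conj_ofReal]
  norm_num

/-- `Fhat f` as a Schwartz function -/
noncomputable def FhatS (f : 𝓢(ℂ, ℂ)) : 𝓢(ℂ, ℂ) :=
  SchwartzMap.compCLMOfContinuousLinearEquiv ℂ twoConj (𝓕 f)

theorem FhatS_apply (f : 𝓢(ℂ, ℂ)) (y : ℂ) : FhatS f y = Fhat f y := by
  rw [FhatS, SchwartzMap.compCLMOfContinuousLinearEquiv_apply, Function.comp, twoConj_apply,
    Fhat_eq_fourier, SchwartzMap.fourier_coe]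

/-- composition with `z ↦ z ^ 3` -/
noncomputable def cubeS (g : 𝓢(ℂ, ℂ)) : 𝓢(ℂ, ℂ) :=
  SchwartzMap.compCLM ℂ (g := fun z : ℂ => z ^ 3)
    (by exact Function.HasTemperateGrowth.pow Function.HasTemperateGrowth.id' 3)
    ⟨1, 1, fun x => by
      rw [norm_pow, pow_one, one_mul]
      have h0 := norm_nonneg x
      nlinarith [sq_nonneg (‖x‖ - 1), mul_nonneg h0 (sq_nonneg (‖x‖ - 1))]⟩ g

theorem cubeS_apply (g : 𝓢(ℂ, ℂ)) (z : ℂ) : cubeS g z = g (z ^ 3) := rfl

theorem schwartz_decay (g : 𝓢(ℂ, ℂ)) (k : ℕ) : ∃ C : ℝ, 0 < C ∧ ∀ y : ℂ, ‖y‖ ^ k * ‖g y‖ ≤ C := by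
  obtain ⟨C, hC0, hC⟩ := g.decay k 0
  refine ⟨C, hC0, fun y => ?_⟩
  have := hC y
  rwa [norm_iteratedFDeriv_zero] at this

theorem integrableOn_mul_rpow {h : ℝ → ℂ} (hc : Continuous h) {C : ℝ}
    (h0 : ∀ u, 0 < u → ‖h u‖ ≤ C) (h2 : ∀ u, 0 < u → u ^ 2 * ‖h u‖ ≤ C) {a : ℝ}
    (ha : -1 < a) (ha' : a < 1) :
    IntegrableOn (fun u : ℝ => h u * ((u ^ a : ℝ) : ℂ)) (Ioi 0) := by
  have hm : AEStronglyMeasurable (fun u : ℝ => h u * ((u ^ a : ℝ) : ℂ)) (volume.restrict (Ioi 0)) := by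
    apply Measurable.aestronglyMeasurable
    have := hc.measurable
    fun_prop
  rw [← Ioc_union_Ioi_eq_Ioi (zero_le_one (α := ℝ))]
  refine IntegrableOn.union ?_ ?_
  · have h1 : IntegrableOn (fun u : ℝ => C * u ^ a) (Ioc 0 1) := by
      refine Integrable.const_mul ?_ C
      have := (intervalIntegral.intervalIntegrable_rpow' (a := 0) (b := 1) ha)
      rwa [intervalIntegrable_iff_integrableOn_Ioc_of_le zero_le_one] at this
    refine Integrable.mono' h1 (hm.mono_measure (Measure.restrict_mono Ioc_subset_Ioi_self le_rfl)) ?_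
    filter_upwards [ae_restrict_mem measurableSet_Ioc] with u hu
    rw [norm_mul, Complex.norm_real, Real.norm_of_nonneg (Real.rpow_nonneg hu.1.le a)]
    exact mul_le_mul_of_nonneg_right (h0 u hu.1) (Real.rpow_nonneg hu.1.le a)
  · have h1 : IntegrableOn (fun u : ℝ => C * u ^ (a - 2)) (Ioi 1) := by
      refine Integrable.const_mul ?_ C
      exact integrableOn_Ioi_rpow_of_lt (by linarith) zero_lt_one
    refine Integrable.mono' h1 (hm.mono_measure (Measure.restrict_mono (Ioi_subset_Ioi zero_le_one) le_rfl)) ?_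
    filter_upwards [ae_restrict_mem measurableSet_Ioi] with u hu
    have hu : (1 : ℝ) < u := hu
    have hu0 : 0 < u := by linarith
    rw [norm_mul, Complex.norm_real, Real.norm_of_nonneg (Real.rpow_nonneg hu0.le a)]
    have e1 : u ^ (a - 2) = u ^ a / u ^ 2 := by
      rw [Real.rpow_sub hu0]; norm_num
    rw [e1]
    have h3 := h2 u hu0
    have h4 : ‖h u‖ ≤ C / u ^ 2 := by
      rw [le_div_iff₀ (by positivity)]; linarith
    calc ‖h u‖ * u ^ a ≤ C / u ^ 2 * u ^ a :=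
          mul_le_mul_of_nonneg_right h4 (Real.rpow_nonneg hu0.le a)
      _ = C * (u ^ a / u ^ 2) := by ring

theorem schwartz_integrableOn_mul_rpow (g : 𝓢(ℂ, ℂ)) {a : ℝ} (ha : -1 < a) (ha' : a < 1) :
    IntegrableOn (fun u : ℝ => g u * ((u ^ a : ℝ) : ℂ)) (Ioi 0) := by
  obtain ⟨C0, hC0, h0⟩ := schwartz_decay g 0
  obtain ⟨C2, hC2, h2⟩ := schwartz_decay g 2
  refine integrableOn_mul_rpow (C := C0 + C2) (g.continuous.comp Complex.continuous_ofReal)
    (fun u hu => ?_) (fun u hu => ?_) ha ha'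
  · have := h0 (u : ℂ)
    simp only [pow_zero, one_mul, Function.comp] at this ⊢
    linarith
  · have := h2 (u : ℂ)
    rw [Complex.norm_real, Real.norm_of_nonneg hu.le] at this
    simp only [Function.comp]
    linarith

/-- Schwartz version of `integral_Fhat_cube`. -/
theorem integral_Fhat_cube_schwartz (f : 𝓢(ℂ, ℂ)) (hf : ∀ z, f z = f (‖z‖ : ℂ)) :
    ∫ z : ℂ, cubeS (FhatS f) z =
      kapC * ∫ r in Ioi (0 : ℝ), f (r : ℂ) * ((r ^ (1 / 3 : ℝ) : ℝ) : ℂ) := by
  have h1 : ∫ z : ℂ, cubeS (FhatS f) z = ∫ z : ℂ, Fhat f (z ^ 3) := by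
    congr 1; ext z; rw [cubeS_apply, FhatS_apply]
  rw [h1]
  refine integral_Fhat_cube (f := f) (φ := fun r : ℝ => f (r : ℂ)) hf f.integrable ?_ ?_ ?_ ?_
  · have := schwartz_integrableOn_mul_rpow (FhatS f) (a := -(1 / 3)) (by norm_num) (by norm_num)
    simpa only [FhatS_apply] using this
  · exact schwartz_integrableOn_mul_rpow f (by norm_num) (by norm_num)
  · exact (f.continuous.comp Complex.continuous_ofReal).aestronglyMeasurable
  · have : Continuous (fun u : ℝ => FhatS f (u : ℂ)) :=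
      (FhatS f).continuous.comp Complex.continuous_ofReal
    simpa only [FhatS_apply] using this.aestronglyMeasurable

end Vale.Agent.P006.CM
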