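import Mathlib
import Vale.Agent.P006.CM.Schwartz
import Vale.Agent.P006.H485.Schwartz

/-!
P006, block CM, part 3: the sum over the cubes of `O` of the Fourier transform of a radial
function (fixed weight).
-/

namespace Vale.Agent.P006.CM

open MeasureTheory Set
open scoped FourierTransform SchwartzMap ComplexConjugate

theorem FT_eq_Fhat (f : ℂ → ℂ) : PO.FT f = Fhat f := by
  funext y
  rw [PO.FT, Fhat]
  congr 1; ext z
  rw [PO.eT, TrC_neg, mul_comm]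

/-- scaling of a Schwartz function -/
noncomputable def scaleE (s : ℝ) (hs : s ≠ 0) : ℂ ≃L[ℝ] ℂ :=
  ContinuousLinearEquiv.smulLeft (Units.mk0 s hs)

theorem scaleE_apply (s : ℝ) (hs : s ≠ 0) (z : ℂ) : scaleE s hs z = s * z := by
  simp [scaleE, ContinuousLinearEquiv.smulLeft]

/-- Poisson summation for `∑ g(s ν)`, in the form used below. -/
theorem hasSum_scaled (g : 𝓢(ℂ, ℂ)) {s : ℝ} (hs : 0 < s) :
    HasSum (fun h : O => (2 / (Real.sqrt 3 * s ^ 2) : ℂ) * Fhat g (toC h / (toC PO.rt3 * s)))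
      (∑' x : O, g (s * toC x)) := by
  have h := PO.poisson_schwartz g 0 (q := (s : ℂ)) (by exact_mod_cast hs.ne')
  have hn : ‖(s : ℂ)‖ = s := by rw [Complex.norm_real, Real.norm_of_nonneg hs.le]
  simp only [zero_mul, PO.eT_zero, one_mul, zero_add, hn, FT_eq_Fhat] at h
  exact h

theorem Fhat_zero (f : ℂ → ℂ) : Fhat f 0 = ∫ z : ℂ, f z := by
  simp [Fhat]

theorem summable_inv_cube : Summable (fun h : O => (if h = 0 then 0 else (‖toC h‖ ^ 3)⁻¹ : ℝ)) := by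
  have h1 : Summable fun n : Fin 2 → ℤ => ((1 + ‖n‖) ^ 3)⁻¹ := PO.summable_one_add_norm
  have h2 : Summable (fun h : O => ((1 + ‖PO.iz h‖) ^ 3)⁻¹) := PO.iz.summable_iff.2 h1
  refine Summable.of_nonneg_of_le (fun h => ?_) (fun h => ?_) (h2.mul_left 64)
  · split_ifs <;> positivity
  · split_ifs with hh
    · positivity
    · have h3 : 1 ≤ ‖toC h‖ := by
        rw [norm_toC]
        have := N_pos hh
        rw [Real.one_le_sqrt]; exact_mod_cast this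
      have h4 : ‖PO.iz h‖ ≤ 2 * ‖toC h‖ := by
        have := PO.norm_le_co (PO.zv (PO.iz h))
        rwa [PO.norm_zv, PO.co_zv_iz] at this
      have h5 : 1 + ‖PO.iz h‖ ≤ 4 * ‖toC h‖ := by linarith
      have h6 : (1 + ‖PO.iz h‖) ^ 3 ≤ 64 * ‖toC h‖ ^ 3 := by
        calc (1 + ‖PO.iz h‖) ^ 3 ≤ (4 * ‖toC h‖) ^ 3 := by gcongr
          _ = 64 * ‖toC h‖ ^ 3 := by ring
      rw [← div_eq_mul_inv, inv_eq_one_div, div_le_div_iff₀ (by positivity) (by positivity)]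
      linarith

/-- the lattice constant `∑_{h ≠ 0} |h|^{-3}` -/
noncomputable def latC : ℝ := ∑' h : O, (if h = 0 then 0 else (‖toC h‖ ^ 3)⁻¹ : ℝ)

theorem latC_nonneg : 0 ≤ latC := tsum_nonneg (fun h => by split_ifs <;> positivity)

/-- The lattice sum of a Schwartz function at small scale. -/
theorem lattice_sum_small (g : 𝓢(ℂ, ℂ)) :
    ∃ C : ℝ, 0 < C ∧ ∀ s : ℝ, 0 < s →
      ‖∑' x : O, g (s * toC x) - (2 / (Real.sqrt 3 * s ^ 2) : ℂ) * ∫ z : ℂ, g z‖ ≤ C * s := by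
  obtain ⟨C3, hC3, h3⟩ := schwartz_decay (FhatS g) 3
  refine ⟨6 * C3 * (latC + 1), ?_, fun s hs => ?_⟩
  · have := latC_nonneg
    positivity
  have hP := hasSum_scaled g hs
  -- remove the zero frequency
  have h0 : HasSum (fun h : O => if h = 0 then 0 else
      (2 / (Real.sqrt 3 * s ^ 2) : ℂ) * Fhat g (toC h / (toC PO.rt3 * s)))
      (∑' x : O, g (s * toC x) - (2 / (Real.sqrt 3 * s ^ 2) : ℂ) * ∫ z : ℂ, g z) := by
    have h1 := hP.sub (hasSum_ite_eq (0 : O) ((2 / (Real.sqrt 3 * s ^ 2) : ℂ) * ∫ z : ℂ, g z))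
    refine h1.congr_fun ?_
    intro h
    by_cases hh : h = 0
    · simp [hh, Fhat_zero]
    · simp [hh]
  have hb : ∀ h : O, ‖(if h = 0 then 0 else
      (2 / (Real.sqrt 3 * s ^ 2) : ℂ) * Fhat g (toC h / (toC PO.rt3 * s)) : ℂ)‖ ≤
      6 * C3 * s * (if h = 0 then 0 else (‖toC h‖ ^ 3)⁻¹ : ℝ) := by
    intro h
    split_ifs with hh
    · simp
    · have h4 : 0 < ‖toC h‖ := norm_pos_iff.2 (by simpa using hh)
      have h5 := h3 (toC h / (toC PO.rt3 * s))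
      rw [FhatS_apply, norm_div, norm_mul, PO.norm_toC_rt3, Complex.norm_real,
        Real.norm_of_nonneg hs.le] at h5
      rw [norm_mul]
      have h6 : ‖(2 / (Real.sqrt 3 * s ^ 2) : ℂ)‖ = 2 / (Real.sqrt 3 * s ^ 2) := by
        rw [show (2 / (Real.sqrt 3 * s ^ 2) : ℂ) = ((2 / (Real.sqrt 3 * s ^ 2) : ℝ) : ℂ) by
          push_cast; rfl, Complex.norm_real, Real.norm_of_nonneg (by positivity)]
      rw [h6]
      set F := ‖Fhat (⇑g) (toC h / (toC PO.rt3 * s))‖ with hF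
      have h7 : F ≤ C3 * (Real.sqrt 3 * s) ^ 3 * (‖toC h‖ ^ 3)⁻¹ := by
        rw [div_pow, div_mul_eq_mul_div, div_le_iff₀ (by positivity)] at h5
        rw [← div_eq_mul_inv, le_div_iff₀ (by positivity)]
        linarith
      have h8 : Real.sqrt 3 ^ 2 = 3 := Real.sq_sqrt (by norm_num)
      calc 2 / (Real.sqrt 3 * s ^ 2) * F ≤
          2 / (Real.sqrt 3 * s ^ 2) * (C3 * (Real.sqrt 3 * s) ^ 3 * (‖toC h‖ ^ 3)⁻¹) := by gcongr
        _ = 2 * Real.sqrt 3 ^ 2 * C3 * s * (‖toC h‖ ^ 3)⁻¹ := by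
          field_simp
        _ = 6 * C3 * s * (‖toC h‖ ^ 3)⁻¹ := by rw [h8]; ring
  have h9 := tsum_of_norm_bounded
    ((summable_inv_cube.hasSum).mul_left (6 * C3 * s)) hb
  rw [h0.tsum_eq] at h9
  refine h9.trans ?_
  have : 0 ≤ 6 * C3 * s := by positivity
  calc 6 * C3 * s * ∑' h : O, (if h = 0 then 0 else (‖toC h‖ ^ 3)⁻¹ : ℝ) ≤
      6 * C3 * s * (latC + 1) := by
        apply mul_le_mul_of_nonneg_left _ this
        rw [latC]; linarith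
    _ = 6 * C3 * (latC + 1) * s := by ring

/-! ### radial weights -/

theorem hasCompactSupport_radial {V : ℝ → ℂ} (hc : HasCompactSupport V) :
    HasCompactSupport (fun z : ℂ => V (‖z‖ ^ 2)) := by
  obtain ⟨R, hR⟩ := hc.isCompact.isBounded.subset_closedBall 0
  refine HasCompactSupport.intro (isCompact_closedBall (0 : ℂ) (|R| + 1)) (fun z hz => ?_)
  by_contra hne
  have h1 : ‖z‖ ^ 2 ∈ tsupport V := subset_tsupport _ (by simpa using hne)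
  have h2 := hR h1
  rw [Metric.mem_closedBall, dist_zero_right] at h2 hz
  rw [Real.norm_of_nonneg (by positivity)] at h2
  apply hz
  have h3 : R ≤ |R| := le_abs_self R
  nlinarith [abs_nonneg R, norm_nonneg z, sq_nonneg (|R| + 1 - ‖z‖)]

/-- the Schwartz function `z ↦ V(|z|²)` -/
noncomputable def VS (V : ℝ → ℂ) (hV : ContDiff ℝ (⊤ : ℕ∞) V) (hc : HasCompactSupport V) :
    𝓢(ℂ, ℂ) :=
  (hasCompactSupport_radial hc).toSchwartzMap (hV.comp (contDiff_norm_sq ℝ))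

theorem VS_apply (V : ℝ → ℂ) (hV : ContDiff ℝ (⊤ : ℕ∞) V) (hc : HasCompactSupport V) (z : ℂ) :
    VS V hV hc z = V (‖z‖ ^ 2) := rfl

/-- `V°(t) = ∫_ℂ V(|z|²) e(-Tr(z) √t) dz` -/
noncomputable def Vo (V : ℝ → ℂ) (t : ℝ) : ℂ :=
  ∫ z : ℂ, V (‖z‖ ^ 2) * e (-(TrC (z * (Real.sqrt t : ℂ))))

theorem Vo_eq (V : ℝ → ℂ) (t : ℝ) : Vo V t = Fhat (fun z => V (‖z‖ ^ 2)) (Real.sqrt t : ℂ) := rfl

/-- `I(V) = ∫_0^∞ V(u) u^{-1/3} du` -/
noncomputable def IV (V : ℝ → ℂ) : ℂ := ∫ u in Ioi (0 : ℝ), V u * ((u ^ (-(1 / 3) : ℝ) : ℝ) : ℂ)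

/-- `κ₃ = (2π)^{4/3} Γ(1/3) / (6 √3 Γ(2/3))` -/
noncomputable def kap3 : ℝ :=
  (2 * Real.pi) ^ (4 / 3 : ℝ) * Real.Gamma (1 / 3) / (6 * Real.sqrt 3 * Real.Gamma (2 / 3))

theorem IV_eq (V : ℝ → ℂ) :
    ∫ r in Ioi (0 : ℝ), V (r ^ 2) * ((r ^ (1 / 3 : ℝ) : ℝ) : ℂ) = (1 / 2) * IV V := by
  have hs := integral_comp_rpow_Ioi (fun u : ℝ => V u * ((u ^ (-(1 / 3) : ℝ) : ℝ) : ℂ)) (p := 2)
    (by norm_num)
  rw [IV, ← hs, ← integral_const_mul]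
  refine setIntegral_congr_fun measurableSet_Ioi (fun x hx => ?_)
  have hx : 0 < x := hx
  simp only [Complex.real_smul]
  rw [← Real.rpow_mul hx.le]
  have e1 : x ^ (2 : ℝ) = x ^ 2 := by rw [← Real.rpow_natCast]; norm_num
  have e2 : (|(2 : ℝ)| * x ^ ((2 : ℝ) - 1)) * x ^ ((2 : ℝ) * (-(1 / 3))) = 2 * x ^ (1 / 3 : ℝ) := by
    rw [abs_of_pos (by norm_num : (0 : ℝ) < 2), mul_assoc, ← Real.rpow_add hx]
    norm_num
  rw [e1]
  have e3 : (1 / 2 : ℂ) * (((|(2 : ℝ)| * x ^ ((2 : ℝ) - 1) : ℝ) : ℂ) *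
      (V (x ^ 2) * ((x ^ ((2 : ℝ) * (-(1 / 3))) : ℝ) : ℂ))) =
      (1 / 2 : ℂ) * ((((|(2 : ℝ)| * x ^ ((2 : ℝ) - 1)) * x ^ ((2 : ℝ) * (-(1 / 3))) : ℝ) : ℂ) *
        V (x ^ 2)) := by
    push_cast; ring
  rw [e3, e2]
  push_cast; ring

theorem Fhat_cube_scaled (f : 𝓢(ℂ, ℂ)) (hf : ∀ z, f z = f (‖z‖ : ℂ)) {T : ℝ} (hT : 0 < T) (m : O) :
    Fhat f ((Real.sqrt ((N m : ℝ) ^ 3 * T) : ℝ) : ℂ) =
      cubeS (FhatS f) ((T ^ (1 / 6 : ℝ) : ℝ) * toC m) := by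
  rw [cubeS_apply, FhatS_apply]
  rw [Fhat_radial hf ((((T ^ (1 / 6 : ℝ) : ℝ) : ℂ) * toC m) ^ 3)]
  congr 2
  rw [norm_pow, norm_mul, Complex.norm_real, Real.norm_of_nonneg (by positivity), norm_toC,
    mul_pow, ← Real.rpow_natCast (T ^ (1 / 6 : ℝ)), ← Real.rpow_mul hT.le]
  rw [Real.sqrt_mul' _ hT.le, Real.sqrt_eq_rpow T, mul_comm]
  congr 1
  · norm_num
  · have h1 : (N m : ℝ) ^ 3 = (Real.sqrt (N m) ^ 3) ^ 2 := by
      rw [← pow_mul, mul_comm, pow_mul, Real.sq_sqrt (Nat.cast_nonneg _)]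
    rw [h1, Real.sqrt_sq (by positivity)]

/-- `2 ∫_0^∞ f(r) r^{1/3} dr`, equal to `∫_0^∞ V(u) u^{-1/3} du` if `f(z) = V(|z|²)` -/
noncomputable def If (f : ℂ → ℂ) : ℂ :=
  2 * ∫ r in Ioi (0 : ℝ), f (r : ℂ) * ((r ^ (1 / 3 : ℝ) : ℝ) : ℂ)

/-- **CM1** for a radial Schwartz function: the sum over cubes. -/
theorem cube_sum_schwartz (f : 𝓢(ℂ, ℂ)) (hf : ∀ z, f z = f (‖z‖ : ℂ)) :
    ∃ C : ℝ, 0 < C ∧ ∀ T : ℝ, 0 < T →
      Summable (fun m : O => if m = 0 then 0 else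
        Fhat f ((Real.sqrt ((N m : ℝ) ^ 3 * T) : ℝ) : ℂ)) ∧
      ‖∑' m : O, (if m = 0 then 0 else Fhat f ((Real.sqrt ((N m : ℝ) ^ 3 * T) : ℝ) : ℂ)) -
        kap3 * ((T ^ (-(1 / 3) : ℝ) : ℝ) : ℂ) * If f‖ ≤ C * min 1 (T ^ (-(1 / 3) : ℝ)) := by
  set g := cubeS (FhatS f) with hg
  have hint : ∫ z : ℂ, g z = kapC * ((1 / 2) * If f) := by
    rw [hg, integral_Fhat_cube_schwartz _ hf, If]
    ring
  have hmain : ∀ T : ℝ, 0 < T → (2 / (Real.sqrt 3 * ((T ^ (1 / 6 : ℝ) : ℝ) : ℂ) ^ 2) : ℂ) *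
      ∫ z : ℂ, g z = kap3 * ((T ^ (-(1 / 3) : ℝ) : ℝ) : ℂ) * If f := by
    intro T hT
    rw [hint]
    have h1 : ((T ^ (1 / 6 : ℝ) : ℝ) : ℂ) ^ 2 = ((T ^ (1 / 3 : ℝ) : ℝ) : ℂ) := by
      rw [← Complex.ofReal_pow, ← Real.rpow_natCast, ← Real.rpow_mul hT.le]; norm_num
    rw [h1, Real.rpow_neg hT.le, kapC, kap3]
    have h2 : ((T ^ (1 / 3 : ℝ) : ℝ) : ℂ) ≠ 0 := by
      exact_mod_cast (Real.rpow_pos_of_pos hT _).ne'
    have h3 : ((Real.sqrt 3 : ℝ) : ℂ) ≠ 0 := by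
      exact_mod_cast (by positivity : Real.sqrt 3 ≠ 0)
    have h4 : ((Real.Gamma (2 / 3) : ℝ) : ℂ) ≠ 0 := by
      exact_mod_cast (Real.Gamma_pos_of_pos (show (0 : ℝ) < 2 / 3 by norm_num)).ne'
    push_cast
    field_simp
  obtain ⟨C1, hC1, h1⟩ := lattice_sum_small g
  obtain ⟨C3, hC3, h3⟩ := schwartz_decay g 3
  have hL := latC_nonneg
  set M : ℝ := ‖(kap3 : ℂ) * If f‖ with hM
  have hsum0 : ∀ s : ℝ, 0 < s → Summable (fun x : O => g (s * toC x)) := by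
    intro s hs
    have := (PO.schwartz_dec g).summable 0 (q := (s : ℂ)) (by exact_mod_cast hs.ne')
    simpa using this
  refine ⟨C1 + ‖g 0‖ + C3 * latC + M + 1, by positivity, fun T hT => ?_⟩
  have hs : 0 < T ^ (1 / 6 : ℝ) := Real.rpow_pos_of_pos hT _
  have hcong : (fun m : O => if m = 0 then 0 else
      Fhat f ((Real.sqrt ((N m : ℝ) ^ 3 * T) : ℝ) : ℂ)) =
      fun m : O => if m = 0 then 0 else g ((T ^ (1 / 6 : ℝ) : ℝ) * toC m) := by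
    funext m
    split_ifs
    · rfl
    · exact Fhat_cube_scaled f hf hT m
  have hsumg := hsum0 _ hs
  have hrem : HasSum (fun m : O => if m = 0 then 0 else g ((T ^ (1 / 6 : ℝ) : ℝ) * toC m))
      (∑' x : O, g ((T ^ (1 / 6 : ℝ) : ℝ) * toC x) - g 0) := by
    have h2 := hsumg.hasSum.sub (hasSum_ite_eq (0 : O) (g 0))
    refine h2.congr_fun ?_
    intro m
    by_cases hm : m = 0
    · simp [hm]
    · simp [hm]
  rw [hcong]
  refine ⟨hrem.summable, ?_⟩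
  have hT3 : 0 < T ^ (-(1 / 3) : ℝ) := Real.rpow_pos_of_pos hT _
  rcases le_total T 1 with hT1 | hT1
  · -- small `T`
    have hmin : min 1 (T ^ (-(1 / 3) : ℝ)) = 1 := by
      apply min_eq_left
      rw [Real.rpow_neg hT.le]
      exact (one_le_inv₀ (Real.rpow_pos_of_pos hT _)).2 (Real.rpow_le_one hT.le hT1 (by norm_num))
    rw [hmin, mul_one, hrem.tsum_eq]
    have h5 := h1 _ hs
    rw [hmain T hT] at h5
    have h6 : T ^ (1 / 6 : ℝ) ≤ 1 := Real.rpow_le_one hT.le hT1 (by norm_num)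
    have h7 : ‖(∑' x : O, g ((T ^ (1 / 6 : ℝ) : ℝ) * toC x) - g 0) -
        kap3 * ((T ^ (-(1 / 3) : ℝ) : ℝ) : ℂ) * If f‖ ≤
        ‖∑' x : O, g ((T ^ (1 / 6 : ℝ) : ℝ) * toC x) -
          kap3 * ((T ^ (-(1 / 3) : ℝ) : ℝ) : ℂ) * If f‖ + ‖g 0‖ := by
      rw [sub_right_comm]
      exact norm_sub_le _ _
    have h8 : 0 ≤ C3 * latC := by positivity
    have h9 : 0 ≤ M := norm_nonneg _
    have h10 : C1 * T ^ (1 / 6 : ℝ) ≤ C1 := by
      calc C1 * T ^ (1 / 6 : ℝ) ≤ C1 * 1 := by gcongr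
        _ = C1 := mul_one _
    linarith
  · have hmin : min 1 (T ^ (-(1 / 3) : ℝ)) = T ^ (-(1 / 3) : ℝ) := by
      apply min_eq_right
      exact Real.rpow_le_one_of_one_le_of_nonpos hT1 (by norm_num)
    rw [hmin]
    have hb : ∀ m : O, ‖(if m = 0 then 0 else g ((T ^ (1 / 6 : ℝ) : ℝ) * toC m) : ℂ)‖ ≤
        C3 * (T ^ (-(1 / 2) : ℝ)) * (if m = 0 then 0 else (‖toC m‖ ^ 3)⁻¹ : ℝ) := by
      intro m
      split_ifs with hm
      · simp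
      · have h4 : 0 < ‖toC m‖ := norm_pos_iff.2 (by simpa using hm)
        have h5 := h3 ((T ^ (1 / 6 : ℝ) : ℝ) * toC m)
        rw [norm_mul, Complex.norm_real, Real.norm_of_nonneg hs.le, mul_pow,
          ← Real.rpow_natCast (T ^ (1 / 6 : ℝ)), ← Real.rpow_mul hT.le] at h5
        have h6 : T ^ (1 / 6 * ((3 : ℕ) : ℝ)) = T ^ (1 / 2 : ℝ) := by norm_num
        rw [h6] at h5
        rw [Real.rpow_neg hT.le]
        have h7 : 0 < T ^ (1 / 2 : ℝ) := Real.rpow_pos_of_pos hT _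
        rw [show C3 * (T ^ (1 / 2 : ℝ))⁻¹ * (‖toC m‖ ^ 3)⁻¹ = C3 / (T ^ (1 / 2 : ℝ) * ‖toC m‖ ^ 3) by
          field_simp]
        rw [le_div_iff₀ (by positivity)]
        linarith
    have h9 := tsum_of_norm_bounded
      ((summable_inv_cube.hasSum).mul_left (C3 * (T ^ (-(1 / 2) : ℝ)))) hb
    have h10 : T ^ (-(1 / 2) : ℝ) ≤ T ^ (-(1 / 3) : ℝ) :=
      Real.rpow_le_rpow_of_exponent_le hT1 (by norm_num)
    have h11 : ‖(kap3 : ℂ) * ((T ^ (-(1 / 3) : ℝ) : ℝ) : ℂ) * If f‖ = M * T ^ (-(1 / 3) : ℝ) := by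
      rw [hM, mul_right_comm, norm_mul, Complex.norm_real, Real.norm_of_nonneg hT3.le]
    refine (norm_sub_le _ _).trans ?_
    rw [h11]
    have h12 : C3 * T ^ (-(1 / 2) : ℝ) * ∑' h : O, (if h = 0 then 0 else (‖toC h‖ ^ 3)⁻¹ : ℝ) ≤
        C3 * latC * T ^ (-(1 / 3) : ℝ) := by
      rw [← latC]
      calc C3 * T ^ (-(1 / 2) : ℝ) * latC ≤ C3 * T ^ (-(1 / 3) : ℝ) * latC := by gcongr
        _ = _ := by ring
    have h13 : (C1 + ‖g 0‖ + C3 * latC + M + 1) * T ^ (-(1 / 3) : ℝ) =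
        C3 * latC * T ^ (-(1 / 3) : ℝ) + M * T ^ (-(1 / 3) : ℝ) +
        (C1 + ‖g 0‖ + 1) * T ^ (-(1 / 3) : ℝ) := by ring
    have h14 : 0 ≤ (C1 + ‖g 0‖ + 1) * T ^ (-(1 / 3) : ℝ) := by positivity
    rw [h13]
    linarith

theorem If_VS (V : ℝ → ℂ) (hV : ContDiff ℝ (⊤ : ℕ∞) V) (hc : HasCompactSupport V) :
    If (VS V hV hc) = IV V := by
  have h1 : If (VS V hV hc) = 2 * ∫ r in Ioi (0 : ℝ), V (r ^ 2) * ((r ^ (1 / 3 : ℝ) : ℝ) : ℂ) := by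
    rw [If]
    congr 1
    refine setIntegral_congr_fun measurableSet_Ioi (fun r hr => ?_)
    have hr : 0 < r := hr
    simp only [VS_apply, Complex.norm_real, Real.norm_of_nonneg hr.le]
  rw [h1, IV_eq]
  ring

/-- **CM1**, fixed weight: the sum over cubes. -/
theorem cube_sum (V : ℝ → ℂ) (hV : ContDiff ℝ (⊤ : ℕ∞) V) (hc : HasCompactSupport V) :
    ∃ C : ℝ, 0 < C ∧ ∀ T : ℝ, 0 < T →
      Summable (fun m : O => if m = 0 then 0 else Vo V ((N m : ℝ) ^ 3 * T)) ∧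
      ‖∑' m : O, (if m = 0 then 0 else Vo V ((N m : ℝ) ^ 3 * T)) -
        kap3 * ((T ^ (-(1 / 3) : ℝ) : ℝ) : ℂ) * IV V‖ ≤ C * min 1 (T ^ (-(1 / 3) : ℝ)) := by
  have h := cube_sum_schwartz (VS V hV hc) (fun z => by rw [VS_apply, VS_apply]; simp)
  rw [If_VS] at h
  exact h

end Vale.Agent.P006.CM
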