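import Vale.Agent.P006.CM.Hankel
import Vale.Agent.P006.CM.ThSum

/-!
P006, block CM: the cube sum for the weights `V0((u - u0)/ξ)`, uniformly in `ξ, u0`:
`V1.CubeKernel` with error `C ξ^{-1/2}`.
-/

namespace Vale.Agent.P006.CM

open MeasureTheory Set Filter Topology
open scoped ContDiff
open Vale.Agent.P006.PO (Wt)
open Vale.Agent.P006.FINE (D1)
open Vale.Agent.P006.DISP (Bump Vx)

/-- the complex-valued weight -/
noncomputable def Vc (V0 : ℝ → ℝ) (ξ u0 : ℝ) (u : ℝ) : ℂ := ((Vx V0 ξ u0 u : ℝ) : ℂ)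

variable {V0 : ℝ → ℝ} {ξ u0 : ℝ}

theorem Vx_zero_out (h : Bump V0) (hξ : 0 < ξ) {u : ℝ} (hu : u < u0 - ξ / 2 ∨ u0 + 3 * ξ / 2 < u) :
    Vx V0 ξ u0 u = 0 := by
  apply h.zero
  rcases hu with hu | hu
  · left
    rw [div_lt_iff₀ hξ]
    linarith
  · right
    rw [lt_div_iff₀ hξ]
    linarith

theorem wt_Vc (h : Bump V0) (hξ : 0 < ξ) : Wt (Vc V0 ξ u0) where
  smooth := by
    have h1 : ContDiff ℝ ∞ (fun u : ℝ => V0 ((u - u0) / ξ)) :=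
      h.smooth.comp ((contDiff_id.sub contDiff_const).div_const ξ)
    exact Complex.ofRealCLM.contDiff.comp h1
  supp := by
    refine HasCompactSupport.intro (isCompact_Icc (a := u0 - ξ / 2) (b := u0 + 3 * ξ / 2))
      fun u hu => ?_
    rw [Set.mem_Icc, not_and_or, not_le, not_le] at hu
    rw [Vc, Vx_zero_out h hξ hu, Complex.ofReal_zero]

theorem deriv_Vc (h : Bump V0) (hξ : 0 < ξ) :
    deriv (Vc V0 ξ u0) = fun u => ((deriv V0 ((u - u0) / ξ) / ξ : ℝ) : ℂ) := by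
  funext u
  exact (hasDerivAt_Vx h hξ u).deriv

theorem deriv2_Vc (h : Bump V0) (hξ : 0 < ξ) :
    deriv (deriv (Vc V0 ξ u0)) = fun u => ((deriv (deriv V0) ((u - u0) / ξ) / ξ ^ 2 : ℝ) : ℂ) := by
  rw [deriv_Vc h hξ]
  funext u
  have h0 : ContDiff ℝ ∞ (deriv V0) := ((contDiff_infty_iff_deriv (𝕜 := ℝ)).1 h.smooth).2
  have h1 : HasDerivAt (deriv V0) (deriv (deriv V0) ((u - u0) / ξ)) ((u - u0) / ξ) :=
    (h0.differentiable (by simp)).differentiableAt.hasDerivAt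
  have h2 : HasDerivAt (fun u : ℝ => (u - u0) / ξ) (1 / ξ) u :=
    ((hasDerivAt_id u).sub_const u0).div_const ξ
  have h3 := (h1.comp u h2).div_const ξ
  have h4 := h3.ofReal_comp
  refine HasDerivAt.deriv (h4.congr_deriv ?_)
  congr 1
  field_simp

theorem bump_deriv2_bound (h : Bump V0) : ∃ S : ℝ, 0 ≤ S ∧ ∀ x, |deriv (deriv V0) x| ≤ S := by
  have h0 : ContDiff ℝ ∞ (deriv V0) := ((contDiff_infty_iff_deriv (𝕜 := ℝ)).1 h.smooth).2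
  have h1 : Continuous (deriv (deriv V0)) := h0.continuous_deriv (by simp)
  obtain ⟨S, hS⟩ := (h.compact.deriv.deriv).exists_bound_of_continuous h1
  exact ⟨S, (norm_nonneg _).trans (hS 0), hS⟩

/-- vanishing outside an open set propagates to the derivative -/
theorem deriv_zero_out {F : ℝ → ℂ} {p q : ℝ} (hF : ∀ u, u < p ∨ q < u → F u = 0) {u : ℝ}
    (hu : u < p ∨ q < u) : deriv F u = 0 := by
  have h1 : F =ᶠ[𝓝 u] fun _ => 0 := by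
    rcases hu with hu | hu
    · filter_upwards [Iio_mem_nhds hu] with x hx using hF x (Or.inl hx)
    · filter_upwards [Ioi_mem_nhds hu] with x hx using hF x (Or.inr hx)
  rw [h1.deriv_eq, deriv_const]

theorem Vc_zero_out (h : Bump V0) (hξ : 0 < ξ) {u : ℝ} (hu : u < u0 - ξ / 2 ∨ u0 + 3 * ξ / 2 < u) :
    Vc V0 ξ u0 u = 0 := by
  rw [Vc, Vx_zero_out h hξ hu, Complex.ofReal_zero]

/-- integral of a bounded function supported in an interval of length `2ξ` -/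
theorem int_le_of_supp {F : ℝ → ℝ} {p q M : ℝ} (hpq : p ≤ q) (hM : ∀ u, ‖F u‖ ≤ M)
    (hF : ∀ u, u < p ∨ q < u → F u = 0) : ∫ u in Ioi (0 : ℝ), F u ≤ M * (q - p) := by
  have hM0 : 0 ≤ M := (norm_nonneg _).trans (hM 0)
  have h1 : ∫ u in Ioi (0 : ℝ), F u = ∫ u in Ioi (0 : ℝ) ∩ Icc p q, F u := by
    apply setIntegral_eq_of_subset_of_forall_sdiff_eq_zero measurableSet_Ioi inter_subset_left
    intro u hu
    apply hF
    by_contra hcon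
    push Not at hcon
    exact hu.2 ⟨hu.1, hcon.1, hcon.2⟩
  have hfin : volume (Ioi (0 : ℝ) ∩ Icc p q) < ⊤ :=
    (measure_mono inter_subset_right).trans_lt (by rw [Real.volume_Icc]; exact ENNReal.ofReal_lt_top)
  have h2 := norm_setIntegral_le_of_norm_le_const (μ := volume) hfin (fun u _ => hM u)
  have h3 : volume.real (Ioi (0 : ℝ) ∩ Icc p q) ≤ q - p := by
    have h4 : volume.real (Ioi (0 : ℝ) ∩ Icc p q) ≤ volume.real (Icc p q) :=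
      measureReal_mono inter_subset_right (by rw [Real.volume_Icc]; exact ENNReal.ofReal_ne_top)
    rwa [Measure.real, Measure.real, Real.volume_Icc, ENNReal.toReal_ofReal (by linarith)] at h4
  calc ∫ u in Ioi (0 : ℝ), F u ≤ ‖∫ u in Ioi (0 : ℝ) ∩ Icc p q, F u‖ := by
        rw [h1]; exact Real.le_norm_self _
    _ ≤ M * volume.real (Ioi (0 : ℝ) ∩ Icc p q) := h2
    _ ≤ M * (q - p) := by gcongr

theorem L1_eq (V : ℝ → ℂ) : L1 V = Real.pi * ∫ u in Ioi (0 : ℝ), ‖V u‖ := by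
  rw [L1]
  exact integral_sq_real (fun u => ‖V u‖)

theorem L1_le {V : ℝ → ℂ} {p q M : ℝ} (hpq : p ≤ q) (hM : ∀ u, ‖V u‖ ≤ M)
    (hF : ∀ u, u < p ∨ q < u → V u = 0) : L1 V ≤ Real.pi * (M * (q - p)) := by
  rw [L1_eq]
  have hpi := Real.pi_pos
  apply mul_le_mul_of_nonneg_left _ hpi.le
  exact int_le_of_supp hpq (fun u => by rw [norm_norm]; exact hM u)
    (fun u hu => by rw [hF u hu, norm_zero])

theorem L2_le {V : ℝ → ℂ} {p q M : ℝ} (hpq : p ≤ q) (hM : ∀ u, ‖V u‖ ≤ M)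
    (hF : ∀ u, u < p ∨ q < u → V u = 0) :
    ∫ u in Ioi (0 : ℝ), ‖V u‖ ^ 2 ≤ M ^ 2 * (q - p) := by
  refine int_le_of_supp hpq (fun u => ?_) (fun u hu => by rw [hF u hu, norm_zero]; norm_num)
  rw [Real.norm_of_nonneg (by positivity)]
  have := hM u
  gcongr

/-- decay `‖V° x‖ ≤ Q x^{-1/2}` uniformly in `ξ` -/
theorem Vo_half {V : ℝ → ℂ} (hV : Wt V) (hξ : 0 < ξ) {Q : ℝ} (h1 : L1 V ≤ Q * ξ)
    (h2 : L1 (PO.DV V) ≤ 4 * Real.pi ^ 2 * (Q * ξ⁻¹)) {x : ℝ} (hx : 0 < x) :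
    ‖PO.Vo V x‖ ≤ Q * x ^ (-(1 / 2) : ℝ) := by
  have hpi := Real.pi_pos
  have hL : 0 ≤ L1 V := by rw [L1]; positivity
  have hQ : 0 ≤ Q := by
    by_contra hcon
    push Not at hcon
    nlinarith
  have hs : 0 < x ^ (1 / 2 : ℝ) := Real.rpow_pos_of_pos hx _
  have hss : x ^ (1 / 2 : ℝ) * x ^ (1 / 2 : ℝ) = x := by
    rw [← Real.rpow_add hx]; norm_num
  rw [Real.rpow_neg hx.le]
  rcases le_total (ξ * x ^ (1 / 2 : ℝ)) 1 with hc | hc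
  · have h3 : ‖PO.Vo V x‖ ≤ Q * ξ := (PO.norm_Vo_le V x).trans h1
    have h4 : ξ ≤ (x ^ (1 / 2 : ℝ))⁻¹ := by
      rw [← one_div, le_div_iff₀ hs]; exact hc
    exact h3.trans (mul_le_mul_of_nonneg_left h4 hQ)
  · have h3 : 4 * Real.pi ^ 2 * x * ‖PO.Vo V x‖ ≤ 4 * Real.pi ^ 2 * (Q * ξ⁻¹) := by
      have h4 := PO.norm_Vo_le (PO.DV V) x
      rw [PO.Vo_DV hV hx.le, norm_mul, norm_neg, Complex.norm_real,
        Real.norm_of_nonneg (by positivity)] at h4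
      exact h4.trans h2
    have h5 : x * ‖PO.Vo V x‖ ≤ Q * ξ⁻¹ := by
      have h6 : 0 < 4 * Real.pi ^ 2 := by positivity
      have h7 : 4 * Real.pi ^ 2 * (x * ‖PO.Vo V x‖) ≤ 4 * Real.pi ^ 2 * (Q * ξ⁻¹) := by
        calc _ = 4 * Real.pi ^ 2 * x * ‖PO.Vo V x‖ := by ring
          _ ≤ _ := h3
      exact le_of_mul_le_mul_left h7 h6
    have h6 : ξ⁻¹ ≤ x ^ (1 / 2 : ℝ) := by
      rw [inv_eq_one_div, div_le_iff₀ hξ]
      linarith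
    have h7 : x * ‖PO.Vo V x‖ ≤ Q * x ^ (1 / 2 : ℝ) := h5.trans (mul_le_mul_of_nonneg_left h6 hQ)
    rw [← div_eq_mul_inv, le_div_iff₀ hs]
    have h8 : x ^ (1 / 2 : ℝ) * (‖PO.Vo V x‖ * x ^ (1 / 2 : ℝ)) ≤ x ^ (1 / 2 : ℝ) * Q := by
      calc x ^ (1 / 2 : ℝ) * (‖PO.Vo V x‖ * x ^ (1 / 2 : ℝ)) =
          (x ^ (1 / 2 : ℝ) * x ^ (1 / 2 : ℝ)) * ‖PO.Vo V x‖ := by ring
        _ = x * ‖PO.Vo V x‖ := by rw [hss]
        _ ≤ _ := by linarith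
    exact le_of_mul_le_mul_left h8 hs

theorem C0_large {V : ℝ → ℂ} {Q : ℝ}
    (hQ : ∀ x : ℝ, 0 < x → ‖PO.Vo V x‖ ≤ Q * x ^ (-(1 / 2) : ℝ)) {T : ℝ} (hT : 0 < T) :
    ‖V1.C0 V T‖ ≤ Q * T ^ (-(1 / 2) : ℝ) * latC := by
  have hb : ∀ m : O, ‖(if m = 0 then 0 else PO.Vo V (T * (N m : ℝ) ^ 3) : ℂ)‖ ≤
      Q * T ^ (-(1 / 2) : ℝ) * (if m = 0 then 0 else (‖toC m‖ ^ 3)⁻¹ : ℝ) := by
    intro m
    split_ifs with hm
    · simp
    · have hN : (0 : ℝ) < N m := by exact_mod_cast N_pos hm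
      refine (hQ _ (by positivity)).trans (le_of_eq ?_)
      rw [Real.mul_rpow hT.le (by positivity), norm_toC, mul_assoc]
      congr 2
      rw [Real.sqrt_eq_rpow, ← Real.rpow_natCast (N m : ℝ) 3, ← Real.rpow_mul hN.le,
        ← Real.rpow_natCast ((N m : ℝ) ^ (1 / 2 : ℝ)) 3, ← Real.rpow_mul hN.le,
        ← Real.rpow_neg hN.le]
      norm_num
  exact tsum_of_norm_bounded ((summable_inv_cube.hasSum).mul_left _) hb

theorem kap3_pos : 0 < kap3 := by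
  have h1 := Real.Gamma_pos_of_pos (show (0 : ℝ) < 1 / 3 by norm_num)
  have h2 := Real.Gamma_pos_of_pos (show (0 : ℝ) < 2 / 3 by norm_num)
  have h3 := Real.pi_pos
  unfold kap3
  positivity

theorem deriv_XV {V : ℝ → ℂ} (hV : Wt V) :
    deriv (XV V) = fun u => V u + (u : ℂ) * deriv V u := by
  funext u
  exact FINE.D1_apply hV.smooth u

theorem deriv2_XV {V : ℝ → ℂ} (hV : Wt V) :
    deriv (deriv (XV V)) = fun u => 2 * deriv V u + (u : ℂ) * deriv (deriv V) u := by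
  rw [deriv_XV hV]
  funext u
  have h1 := hV.hasDerivAt u
  have h2 := hV.deriv.hasDerivAt u
  have h3 : HasDerivAt (fun u : ℝ => (u : ℂ)) 1 u := (hasDerivAt_id u).ofReal_comp
  have h4 := h1.add (h3.mul h2)
  refine HasDerivAt.deriv (h4.congr_deriv ?_)
  ring

/-- bounds for a weight living on an interval of length `2ξ` -/
structure XiB (V : ℝ → ℂ) (ξ M1 M2 p q : ℝ) : Prop where
  wt : Wt V
  xi : 0 < ξ
  xi1 : ξ ≤ 1
  m1 : 0 ≤ M1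
  m2 : 0 ≤ M2
  hp : 1 / 2 ≤ p
  hq : q ≤ 4
  hqp : q - p = 2 * ξ
  z0 : ∀ u, u < p ∨ q < u → V u = 0
  b0 : ∀ u, ‖V u‖ ≤ 1
  b1 : ∀ u, ‖deriv V u‖ ≤ M1 * ξ⁻¹
  b2 : ∀ u, ‖deriv (deriv V) u‖ ≤ M2 * (ξ⁻¹) ^ 2

namespace XiB

variable {V : ℝ → ℂ} {M1 M2 p q : ℝ} (H : XiB V ξ M1 M2 p q)
include H

theorem hpq : p ≤ q := by have := H.hqp; have := H.xi; linarith
theorem xii : 1 ≤ ξ⁻¹ := (one_le_inv₀ H.xi).2 H.xi1
theorem z1 {u : ℝ} (hu : u < p ∨ q < u) : deriv V u = 0 := deriv_zero_out H.z0 hu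
theorem z2 {u : ℝ} (hu : u < p ∨ q < u) : deriv (deriv V) u = 0 :=
  deriv_zero_out (fun _ h => H.z1 h) hu

theorem hsupp {u : ℝ} (hu : ¬ (u < p ∨ q < u)) : ‖(u : ℂ)‖ ≤ 4 := by
  push Not at hu
  have h1 := H.hp
  have h2 := H.hq
  rw [Complex.norm_real, Real.norm_eq_abs, abs_le]
  constructor <;> linarith [hu.1, hu.2]

theorem bX (u : ℝ) : ‖XV V u‖ ≤ 4 := by
  by_cases hu : u < p ∨ q < u
  · rw [XV, H.z0 u hu, mul_zero, norm_zero]; norm_num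
  · rw [XV, norm_mul]
    have h1 := H.hsupp hu
    have h2 := H.b0 u
    calc ‖(u : ℂ)‖ * ‖V u‖ ≤ 4 * 1 := by gcongr
      _ = 4 := by norm_num

theorem zX (u : ℝ) (hu : u < p ∨ q < u) : XV V u = 0 := by rw [XV, H.z0 u hu, mul_zero]

theorem bD (u : ℝ) : ‖D1 V u‖ ≤ (1 + 4 * M1) * ξ⁻¹ := by
  have hx := H.xii
  have hm := H.m1
  have hxi := H.xi
  rw [FINE.D1_apply H.wt.smooth]
  by_cases hu : u < p ∨ q < u
  · rw [H.z0 u hu, H.z1 hu, mul_zero, add_zero, norm_zero]; positivity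
  · have h1 := H.hsupp hu
    have h2 := H.b0 u
    have h3 := H.b1 u
    calc ‖V u + (u : ℂ) * deriv V u‖ ≤ ‖V u‖ + ‖(u : ℂ)‖ * ‖deriv V u‖ := by
          refine (norm_add_le _ _).trans ?_
          rw [norm_mul]
      _ ≤ 1 + 4 * (M1 * ξ⁻¹) := by gcongr
      _ ≤ (1 + 4 * M1) * ξ⁻¹ := by nlinarith

theorem zD (u : ℝ) (hu : u < p ∨ q < u) : D1 V u = 0 := by
  rw [FINE.D1_apply H.wt.smooth, H.z0 u hu, H.z1 hu, mul_zero, add_zero]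

theorem bDX (u : ℝ) : ‖PO.DV (XV V) u‖ ≤ (1 + 12 * M1 + 16 * M2) * (ξ⁻¹) ^ 2 := by
  have hx := H.xii
  have hm := H.m1
  have hm2 := H.m2
  have hxi := H.xi
  have y1 : ξ⁻¹ ≤ (ξ⁻¹) ^ 2 := le_self_pow₀ hx (by norm_num)
  have y2 : 1 ≤ (ξ⁻¹) ^ 2 := one_le_pow₀ hx
  rw [PO.DV, deriv2_XV H.wt, deriv_XV H.wt]
  by_cases hu : u < p ∨ q < u
  · simp only [H.z0 u hu, H.z1 hu, H.z2 hu, mul_zero, add_zero, norm_zero]; positivity
  · have h1 := H.hsupp hu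
    have h2 := H.b0 u
    have h3 := H.b1 u
    have h4 := H.b2 u
    calc ‖V u + (u : ℂ) * deriv V u + (u : ℂ) * (2 * deriv V u + (u : ℂ) * deriv (deriv V) u)‖
        ≤ ‖V u‖ + ‖(u : ℂ)‖ * ‖deriv V u‖ +
          ‖(u : ℂ)‖ * (2 * ‖deriv V u‖ + ‖(u : ℂ)‖ * ‖deriv (deriv V) u‖) := by
          refine (norm_add_le _ _).trans (add_le_add ((norm_add_le _ _).trans ?_) ?_)
          · rw [norm_mul]
          · rw [norm_mul]
            gcongr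
            refine (norm_add_le _ _).trans ?_
            rw [norm_mul, norm_mul]
            norm_num
      _ ≤ 1 + 4 * (M1 * ξ⁻¹) + 4 * (2 * (M1 * ξ⁻¹) + 4 * (M2 * (ξ⁻¹) ^ 2)) := by gcongr
      _ = 1 + 12 * M1 * ξ⁻¹ + 16 * M2 * (ξ⁻¹) ^ 2 := by ring
      _ ≤ 1 * (ξ⁻¹) ^ 2 + 12 * M1 * (ξ⁻¹) ^ 2 + 16 * M2 * (ξ⁻¹) ^ 2 := by gcongr; linarith
      _ = _ := by ring

theorem zDX (u : ℝ) (hu : u < p ∨ q < u) : PO.DV (XV V) u = 0 := by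
  rw [PO.DV, deriv2_XV H.wt, deriv_XV H.wt]
  simp only [H.z0 u hu, H.z1 hu, H.z2 hu, mul_zero, add_zero]

theorem bDV (u : ℝ) : ‖PO.DV V u‖ ≤ (M1 + 4 * M2) * (ξ⁻¹) ^ 2 := by
  have hx := H.xii
  have hm := H.m1
  have hm2 := H.m2
  have hxi := H.xi
  have y1 : ξ⁻¹ ≤ (ξ⁻¹) ^ 2 := le_self_pow₀ hx (by norm_num)
  rw [PO.DV]
  by_cases hu : u < p ∨ q < u
  · rw [H.z1 hu, H.z2 hu, mul_zero, add_zero, norm_zero]; positivity
  · have h1 := H.hsupp hu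
    have h3 := H.b1 u
    have h4 := H.b2 u
    calc ‖deriv V u + (u : ℂ) * deriv (deriv V) u‖ ≤
          ‖deriv V u‖ + ‖(u : ℂ)‖ * ‖deriv (deriv V) u‖ := by
          refine (norm_add_le _ _).trans ?_
          rw [norm_mul]
      _ ≤ M1 * ξ⁻¹ + 4 * (M2 * (ξ⁻¹) ^ 2) := by gcongr
      _ ≤ M1 * (ξ⁻¹) ^ 2 + 4 * (M2 * (ξ⁻¹) ^ 2) := by gcongr
      _ = _ := by ring

theorem zDV (u : ℝ) (hu : u < p ∨ q < u) : PO.DV V u = 0 := by
  rw [PO.DV, H.z1 hu, H.z2 hu, mul_zero, add_zero]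

/-- first integral -/
theorem I1 : ∫ x in Ioi (0 : ℝ), ‖PO.Vo (XV V) x‖ ≤
    (1 / 2 + (5 + 12 * M1 + 16 * M2) ^ 2 / 4) * ξ ^ (-(1 / 2) : ℝ) := by
  have hxi := H.xi
  have hm := H.m1
  have hm2 := H.m2
  have hpi3 := Real.pi_gt_three
  set A : ℝ := 5 + 12 * M1 + 16 * M2 with hA
  have e32 : ξ ^ (3 / 2 : ℝ) * (ξ ^ 2)⁻¹ = ξ ^ (-(1 / 2) : ℝ) := by
    rw [← Real.rpow_natCast ξ 2, ← Real.rpow_neg hxi.le, ← Real.rpow_add hxi]
    norm_num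
  have e32' : (ξ ^ (3 / 2 : ℝ))⁻¹ * ξ = ξ ^ (-(1 / 2) : ℝ) := by
    rw [← Real.rpow_neg hxi.le]
    nth_rewrite 2 [← Real.rpow_one ξ]
    rw [← Real.rpow_add hxi]
    norm_num
  have hε : 0 < ξ ^ (3 / 2 : ℝ) := Real.rpow_pos_of_pos hxi _
  have hl : 0 < ξ ^ 2 := by positivity
  have h1 := int_Vo_le (wt_XV H.wt) hl hε
  have h2 : ∫ u in Ioi (0 : ℝ), ‖XV V u - (ξ ^ 2 / (4 * Real.pi ^ 2) : ℝ) * PO.DV (XV V) u‖ ^ 2 ≤
      A ^ 2 * (q - p) := by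
    apply L2_le H.hpq
    · intro u
      refine (norm_sub_le _ _).trans ?_
      rw [norm_mul, Complex.norm_real, Real.norm_of_nonneg (by positivity), hA]
      have h3 := H.bX u
      have h4 := H.bDX u
      have h5 : ξ ^ 2 / (4 * Real.pi ^ 2) * ‖PO.DV (XV V) u‖ ≤ 1 + 12 * M1 + 16 * M2 := by
        calc ξ ^ 2 / (4 * Real.pi ^ 2) * ‖PO.DV (XV V) u‖ ≤
            ξ ^ 2 / 1 * ((1 + 12 * M1 + 16 * M2) * (ξ⁻¹) ^ 2) := by
              gcongr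
              nlinarith
          _ = 1 + 12 * M1 + 16 * M2 := by field_simp
      linarith
    · intro u hu
      rw [H.zX u hu, H.zDX u hu, mul_zero, sub_zero]
  calc _ ≤ _ := h1
    _ ≤ ξ ^ (3 / 2 : ℝ) / 2 * (ξ ^ 2)⁻¹ + 1 / (8 * ξ ^ (3 / 2 : ℝ)) * (A ^ 2 * (q - p)) := by
        gcongr
    _ = 1 / 2 * (ξ ^ (3 / 2 : ℝ) * (ξ ^ 2)⁻¹) + A ^ 2 / 4 * ((ξ ^ (3 / 2 : ℝ))⁻¹ * ξ) := by
        rw [H.hqp]
        field_simp
        ring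
    _ = _ := by rw [e32, e32']; ring

/-- second integral -/
theorem I2 : ∫ x in Ioi (0 : ℝ), ‖PO.Vo (D1 V) x‖ / x ≤
    (128 * Real.pi ^ 3 + 2 + (1 + 4 * M1) ^ 2 / 4) * ξ ^ (-(1 / 2) : ℝ) := by
  have hxi := H.xi
  have hxi1 := H.xi1
  have hm := H.m1
  have hpi := Real.pi_pos
  set r : ℝ := ξ ^ (-(1 / 2) : ℝ) with hr
  have hr0 : 0 < r := Real.rpow_pos_of_pos hxi _
  have hr1 : 1 ≤ r := Real.one_le_rpow_of_pos_of_le_one_of_nonpos hxi hxi1 (by norm_num)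
  have er : r⁻¹ * (ξ⁻¹ ^ 2 * ξ) = r := by
    have h1 : ξ⁻¹ ^ 2 * ξ = ξ⁻¹ := by field_simp
    rw [h1, hr, ← Real.rpow_neg_one ξ, ← Real.rpow_neg hxi.le, ← Real.rpow_add hxi]
    norm_num
  have h1 := int_Vo_D1_le H.wt hr0
  have h2 : ∫ u in Ioi (0 : ℝ), ‖D1 V u‖ ^ 2 ≤ ((1 + 4 * M1) * ξ⁻¹) ^ 2 * (q - p) :=
    L2_le H.hpq H.bD H.zD
  have h3 : L1 (XV V) ≤ Real.pi * (4 * (q - p)) := L1_le H.hpq H.bX H.zX
  calc _ ≤ _ := h1
    _ ≤ 16 * Real.pi ^ 2 * (Real.pi * (4 * (q - p))) + 2 * r +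
        1 / (8 * r) * (((1 + 4 * M1) * ξ⁻¹) ^ 2 * (q - p)) := by gcongr
    _ = 128 * Real.pi ^ 3 * ξ + 2 * r + (1 + 4 * M1) ^ 2 / 4 * (r⁻¹ * (ξ⁻¹ ^ 2 * ξ)) := by
        rw [H.hqp]
        field_simp
        ring
    _ = 128 * Real.pi ^ 3 * ξ + 2 * r + (1 + 4 * M1) ^ 2 / 4 * r := by rw [er]
    _ ≤ 128 * Real.pi ^ 3 * r + 2 * r + (1 + 4 * M1) ^ 2 / 4 * r := by
        gcongr
        linarith
    _ = _ := by ring

theorem norm_IV : ‖IV V‖ ≤ 4 := by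
  have hxi := H.xi
  have hxi1 := H.xi1
  rw [IV]
  refine (norm_integral_le_integral_norm _).trans ?_
  have h1 := int_le_of_supp (F := fun u => ‖V u * ((u ^ (-(1 / 3) : ℝ) : ℝ) : ℂ)‖) (M := 2) H.hpq
    (fun u => ?_) (fun u hu => by rw [H.z0 u hu, zero_mul, norm_zero])
  · rw [H.hqp] at h1
    linarith
  · by_cases hu : u < p ∨ q < u
    · rw [H.z0 u hu, zero_mul, norm_zero, norm_zero]; norm_num
    · push Not at hu
      have hup : 1 / 2 ≤ u := H.hp.trans hu.1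
      have hu0 : 0 < u := by linarith
      rw [norm_norm, norm_mul, Complex.norm_real, Real.norm_of_nonneg (by positivity)]
      have h3 : u ^ (-(1 / 3) : ℝ) ≤ (1 / 2 : ℝ) ^ (-(1 / 3) : ℝ) :=
        Real.rpow_le_rpow_of_nonpos (by norm_num) hup (by norm_num)
      have h4 : (1 / 2 : ℝ) ^ (-(1 / 3) : ℝ) ≤ (1 / 2 : ℝ) ^ (-1 : ℝ) :=
        Real.rpow_le_rpow_of_exponent_ge (by norm_num) (by norm_num) (by norm_num)
      have h5 : (1 / 2 : ℝ) ^ (-1 : ℝ) = 2 := by rw [Real.rpow_neg_one]; norm_num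
      have h6 := H.b0 u
      calc ‖V u‖ * u ^ (-(1 / 3) : ℝ) ≤ 1 * 2 := by
            gcongr
            linarith
        _ = 2 := by norm_num

theorem half {x : ℝ} (hx : 0 < x) :
    ‖PO.Vo V x‖ ≤ (2 * Real.pi + (M1 + 4 * M2)) * x ^ (-(1 / 2) : ℝ) := by
  have hxi := H.xi
  have hm := H.m1
  have hm2 := H.m2
  have hpi := Real.pi_pos
  have hpi3 := Real.pi_gt_three
  refine Vo_half H.wt hxi ?_ ?_ hx
  · have h1 := L1_le H.hpq H.b0 H.z0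
    rw [H.hqp] at h1
    calc _ ≤ _ := h1
      _ = 2 * Real.pi * ξ := by ring
      _ ≤ (2 * Real.pi + (M1 + 4 * M2)) * ξ := by
          gcongr
          have : 0 ≤ M1 + 4 * M2 := by positivity
          linarith
  · have h1 := L1_le H.hpq H.bDV H.zDV
    rw [H.hqp] at h1
    calc _ ≤ _ := h1
      _ = 2 * Real.pi * ((M1 + 4 * M2) * ξ⁻¹) := by field_simp
      _ ≤ 4 * Real.pi ^ 2 * ((2 * Real.pi + (M1 + 4 * M2)) * ξ⁻¹) := by
          have h2 : M1 + 4 * M2 ≤ 2 * Real.pi + (M1 + 4 * M2) := by linarith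
          have h3 : 2 * Real.pi ≤ 4 * Real.pi ^ 2 := by nlinarith
          gcongr

end XiB

theorem xiB_Vc (h : Bump V0) {M1 M2 : ℝ} (hM10 : 0 ≤ M1) (hM1 : ∀ x, |deriv V0 x| ≤ M1)
    (hM20 : 0 ≤ M2) (hM2 : ∀ x, |deriv (deriv V0) x| ≤ M2) (hξ : 0 < ξ) (hξ1 : ξ ≤ 1)
    (hu : 1 ≤ u0) (hu2 : u0 ≤ 2) :
    XiB (Vc V0 ξ u0) ξ M1 M2 (u0 - ξ / 2) (u0 + 3 * ξ / 2) where
  wt := wt_Vc h hξ
  xi := hξ
  xi1 := hξ1
  m1 := hM10
  m2 := hM20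
  hp := by linarith
  hq := by linarith
  hqp := by ring
  z0 := fun u hu => Vc_zero_out h hξ hu
  b0 := by
    intro u
    rw [Vc, Complex.norm_real, Vx, Real.norm_of_nonneg (h.nonneg _)]
    exact h.le_one _
  b1 := by
    intro u
    rw [deriv_Vc h hξ, Complex.norm_real, Real.norm_eq_abs, abs_div, abs_of_pos hξ,
      div_eq_mul_inv]
    have := hM1 ((u - u0) / ξ)
    gcongr
  b2 := by
    intro u
    rw [deriv2_Vc h hξ, Complex.norm_real, Real.norm_eq_abs, abs_div,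
      abs_of_pos (by positivity : 0 < ξ ^ 2), div_eq_mul_inv, ← inv_pow]
    have := hM2 ((u - u0) / ξ)
    gcongr

theorem XiB.cubeKernel {V : ℝ → ℂ} {M1 M2 p q : ℝ} (H : XiB V ξ M1 M2 p q) :
    V1.CubeKernel V (kap3 * IV V)
      ((3000 * (12 * Real.pi ^ 2 * (1 / 2 + (5 + 12 * M1 + 16 * M2) ^ 2 / 4) +
        (128 * Real.pi ^ 3 + 2 + (1 + 4 * M1) ^ 2 / 4)) +
        (2 * Real.pi + (M1 + 4 * M2)) * latC + 4 * kap3) * ξ ^ (-(1 / 2) : ℝ)) := by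
  have hxi := H.xi
  have hxi1 := H.xi1
  have hm := H.m1
  have hm2 := H.m2
  have hpi := Real.pi_pos
  have hlat := latC_nonneg
  have hk3 := kap3_pos
  have I1 := H.I1
  have I2 := H.I2
  set J1 := 1 / 2 + (5 + 12 * M1 + 16 * M2) ^ 2 / 4 with hJ1
  set J2 := 128 * Real.pi ^ 3 + 2 + (1 + 4 * M1) ^ 2 / 4 with hJ2
  have hJ10 : 0 ≤ J1 := by positivity
  have hJ20 : 0 ≤ J2 := by positivity
  set Q := 2 * Real.pi + (M1 + 4 * M2) with hQ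
  have hQ0 : 0 ≤ Q := by positivity
  set r : ℝ := ξ ^ (-(1 / 2) : ℝ) with hr
  have hr0 : 0 < r := Real.rpow_pos_of_pos hxi _
  have hr1 : 1 ≤ r := Real.one_le_rpow_of_pos_of_le_one_of_nonpos hxi hxi1 (by norm_num)
  intro T hT
  rcases le_total T 1 with hT1 | hT1
  · have hmin : min 1 (T ^ (-(1 / 3) : ℝ)) = 1 := by
      apply min_eq_left
      exact Real.one_le_rpow_of_pos_of_le_one_of_nonpos hT hT1 (by norm_num)
    rw [hmin, mul_one]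
    have h1 := C0_err H.wt hT
    calc _ ≤ _ := h1
      _ ≤ 3000 * (12 * Real.pi ^ 2 * (J1 * r) + J2 * r) := by gcongr
      _ = 3000 * (12 * Real.pi ^ 2 * J1 + J2) * r := by ring
      _ ≤ (3000 * (12 * Real.pi ^ 2 * J1 + J2) + Q * latC + 4 * kap3) * r := by
          gcongr
          have : 0 ≤ Q * latC + 4 * kap3 := by positivity
          linarith
  · have hmin : min 1 (T ^ (-(1 / 3) : ℝ)) = T ^ (-(1 / 3) : ℝ) := by
      apply min_eq_right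
      exact Real.rpow_le_one_of_one_le_of_nonpos hT1 (by norm_num)
    rw [hmin]
    have h1 := C0_large (fun x hx => H.half hx) hT
    have hT3 : 0 < T ^ (-(1 / 3) : ℝ) := Real.rpow_pos_of_pos hT _
    have h2 : T ^ (-(1 / 2) : ℝ) ≤ T ^ (-(1 / 3) : ℝ) :=
      Real.rpow_le_rpow_of_exponent_le hT1 (by norm_num)
    have hIV := H.norm_IV
    have hc0 : 0 ≤ 3000 * (12 * Real.pi ^ 2 * J1 + J2) := by positivity
    calc ‖V1.C0 V T - kap3 * IV V * ((T ^ (-(1 / 3) : ℝ) : ℝ) : ℂ)‖ ≤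
        ‖V1.C0 V T‖ + ‖kap3 * IV V * ((T ^ (-(1 / 3) : ℝ) : ℝ) : ℂ)‖ := norm_sub_le _ _
      _ ≤ Q * T ^ (-(1 / 2) : ℝ) * latC + kap3 * 4 * T ^ (-(1 / 3) : ℝ) := by
          apply add_le_add h1
          rw [norm_mul, norm_mul, Complex.norm_real, Complex.norm_real,
            Real.norm_of_nonneg hk3.le, Real.norm_of_nonneg hT3.le]
          gcongr
      _ ≤ Q * T ^ (-(1 / 3) : ℝ) * latC + kap3 * 4 * T ^ (-(1 / 3) : ℝ) := by gcongr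
      _ = (Q * latC + 4 * kap3) * 1 * T ^ (-(1 / 3) : ℝ) := by ring
      _ ≤ (3000 * (12 * Real.pi ^ 2 * J1 + J2) + Q * latC + 4 * kap3) * r *
          T ^ (-(1 / 3) : ℝ) := by
          have h3 : Q * latC + 4 * kap3 ≤
            3000 * (12 * Real.pi ^ 2 * J1 + J2) + Q * latC + 4 * kap3 := by linarith
          have h4 : 0 ≤ Q * latC + 4 * kap3 := by positivity
          gcongr

/-- **uniform cube sum**: helper333's `CubeKernel` for `V0((u-u0)/ξ)` with error `C ξ^{-1/2}` -/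
theorem cubeKernel_xi (h : Bump V0) : ∃ C : ℝ, 0 ≤ C ∧ ∀ ξ u0 : ℝ, 0 < ξ → ξ ≤ 1 → 1 ≤ u0 →
    u0 ≤ 2 → V1.CubeKernel (fun u => ((Vx V0 ξ u0 u : ℝ) : ℂ))
      (kap3 * IV (fun u => ((Vx V0 ξ u0 u : ℝ) : ℂ))) (C * ξ ^ (-(1 / 2) : ℝ)) := by
  obtain ⟨M1, hM10, hM1⟩ := h.deriv_bound
  obtain ⟨M2, hM20, hM2⟩ := bump_deriv2_bound h
  have hpi := Real.pi_pos
  have hlat := latC_nonneg
  have hk3 := kap3_pos
  exact ⟨_, by positivity, fun ξ u0 hξ hξ1 hu hu2 =>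
    (xiB_Vc h hM10 hM1 hM20 hM2 hξ hξ1 hu hu2).cubeKernel⟩

/-- fixed weights: `CubeKernel` for every `Wt V` -/
theorem cubeKernel_wt {V : ℝ → ℂ} (hV : Wt V) : ∃ E : ℝ, 0 ≤ E ∧
    V1.CubeKernel V (kap3 * IV V) E := by
  obtain ⟨C, hC, h⟩ := cube_sum V hV.smooth hV.supp
  refine ⟨C, hC.le, fun T hT => ?_⟩
  obtain ⟨_, h2⟩ := h T hT
  have e1 : V1.C0 V T = ∑' m : O, (if m = 0 then 0 else Vo V ((N m : ℝ) ^ 3 * T)) := by
    rw [V1.C0]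
    refine tsum_congr fun m => ?_
    have : PO.Vo V (T * (N m : ℝ) ^ 3) = Vo V ((N m : ℝ) ^ 3 * T) := by
      rw [PO.Vo, FT_eq_Fhat, Vo_eq, mul_comm]
      rfl
    rw [this]
  rw [e1]
  rw [show (kap3 : ℂ) * IV V * ((T ^ (-(1 / 3 : ℝ)) : ℝ) : ℂ) =
    kap3 * ((T ^ (-(1 / 3) : ℝ) : ℝ) : ℂ) * IV V by ring]
  exact h2

end Vale.Agent.P006.CM
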