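import Mathlib
import Vale.Agent.P006.TI.Count
import Vale.Agent.P006.H845.Order

/-!
P006, block CM: the constants of the third main term.
`Zc D = ∑_{b primary, (b,D)=1} N(b)^{-2}`, `Z2 * Zc 1 = 1`, `Zc (p D) = (1 - N(p)^{-2}) Zc D`.
-/

namespace Vale.Agent.P006.CM

open Vale.Agent.P006 Finset
open Vale.Agent.P006.TI

/-- `N(b)^{-2}` if `P b`, else `0` -/
noncomputable def zt (P : O → Prop) (b : O) : ℝ :=
  @ite ℝ (P b) (Classical.propDecidable _) ((N b : ℝ) ^ 2)⁻¹ 0

theorem zt_pos {P : O → Prop} {b : O} (h : P b) : zt P b = ((N b : ℝ) ^ 2)⁻¹ := by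
  rw [zt, if_pos h]

theorem zt_neg {P : O → Prop} {b : O} (h : ¬ P b) : zt P b = 0 := by
  rw [zt, if_neg h]

theorem zt_nonneg (P : O → Prop) (b : O) : 0 ≤ zt P b := by
  by_cases h : P b
  · rw [zt_pos h]; positivity
  · rw [zt_neg h]

/-- `∑_{b primary, (b,D)=1} N(b)^{-2}` -/
noncomputable def Zc (D : O) : ℝ := ∑' b : O, zt (fun b => Primary b ∧ IsCoprime b D) b

theorem summable_N_sq : Summable fun b : O => ((N b : ℝ) ^ 2)⁻¹ := by
  refine (HB.summable_N_rpow (s := 2) (by norm_num)).congr fun b => ?_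
  rw [Real.rpow_neg (by positivity), Real.rpow_ofNat]

theorem summable_zt (P : O → Prop) : Summable (zt P) := by
  refine Summable.of_nonneg_of_le (zt_nonneg P) (fun b => ?_) summable_N_sq
  by_cases h : P b
  · rw [zt_pos h]
  · rw [zt_neg h]; positivity

theorem Zc_nonneg (D : O) : 0 ≤ Zc D := tsum_nonneg fun b => zt_nonneg _ b

theorem Zc_rec {p D : O} (hp : Prime p) (hpp : Primary p) (hpD : IsCoprime p D) :
    Zc (p * D) = (1 - ((N p : ℝ) ^ 2)⁻¹) * Zc D := by
  have hN : (0 : ℝ) < N p := by exact_mod_cast N_pos hp.ne_zero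
  -- the terms divisible by `p`
  have h1 : Zc D = Zc (p * D) + ∑' b : O, zt (fun b => Primary b ∧ IsCoprime b D ∧ p ∣ b) b := by
    rw [Zc, Zc, ← (summable_zt _).tsum_add (summable_zt _)]
    apply tsum_congr
    intro b
    by_cases hb : Primary b
    · by_cases hbD : IsCoprime b D
      · by_cases hpb : p ∣ b
        · have : ¬ IsCoprime b (p * D) := by
            rw [IsCoprime.mul_right_iff]
            rintro ⟨h, _⟩
            exact hp.not_isUnit (h.isUnit_of_dvd' hpb dvd_rfl)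
          rw [zt_pos ⟨hb, hbD⟩, zt_neg (fun h => this h.2), zt_pos ⟨hb, hbD, hpb⟩, zero_add]
        · have : IsCoprime b (p * D) :=
            IsCoprime.mul_right_iff.2 ⟨((hp.coprime_iff_not_dvd).2 hpb).symm, hbD⟩
          rw [zt_pos ⟨hb, hbD⟩, zt_pos ⟨hb, this⟩, zt_neg (fun h => hpb h.2.2), add_zero]
      · have : ¬ IsCoprime b (p * D) := fun h => hbD (IsCoprime.mul_right_iff.1 h).2
        rw [zt_neg (fun h => hbD h.2), zt_neg (fun h => this h.2), zt_neg (fun h => hbD h.2.1),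
          add_zero]
    · rw [zt_neg (fun h => hb h.1), zt_neg (fun h => hb h.1), zt_neg (fun h => hb h.1), add_zero]
  have h2 : ∑' b : O, zt (fun b => Primary b ∧ IsCoprime b D ∧ p ∣ b) b =
      ((N p : ℝ) ^ 2)⁻¹ * Zc D := by
    have hinj : Function.Injective fun b : O => p * b := mul_right_injective₀ hp.ne_zero
    have hsupp : Function.support (zt (fun b => Primary b ∧ IsCoprime b D ∧ p ∣ b)) ⊆
        Set.range fun b : O => p * b := by
      intro b hb
      rw [Function.mem_support] at hb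
      by_contra hcon
      apply hb
      rw [zt_neg]
      rintro ⟨_, _, c, rfl⟩
      exact hcon ⟨c, rfl⟩
    rw [← hinj.tsum_eq hsupp, Zc, ← tsum_mul_left]
    apply tsum_congr
    intro b
    have e1 : (Primary (p * b) ∧ IsCoprime (p * b) D ∧ p ∣ p * b) ↔ (Primary b ∧ IsCoprime b D) := by
      constructor
      · rintro ⟨h3, h4, _⟩
        exact ⟨hpp.of_mul h3, h4.of_mul_left_right⟩
      · rintro ⟨h3, h4⟩
        exact ⟨hpp.mul h3, hpD.mul_left h4, dvd_mul_right _ _⟩
    by_cases h : Primary b ∧ IsCoprime b D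
    · rw [zt_pos (e1.2 h), zt_pos h, N_mul]
      push_cast
      rw [mul_pow, mul_inv]
    · rw [zt_neg (fun h' => h (e1.1 h')), zt_neg h, mul_zero]
  rw [h2] at h1
  linarith

theorem sum_mu_dvs {n : O} (hn : Primary n) : ∑ d ∈ dvs n, (mu d : ℝ) = if n = 1 then 1 else 0 := by
  classical
  have h := sum_mu_divs hn
  have h2 : dvs n = H570.PO.divs n := by
    ext d
    rw [mem_dvs hn.ne_zero, mem_divs hn]
  rw [h2]
  have h3 : ((∑ d ∈ H570.PO.divs n, mu d : ℤ) : ℝ) = ∑ d ∈ H570.PO.divs n, (mu d : ℝ) := by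
    push_cast; rfl
  rw [← h3, h]
  split_ifs <;> simp

open Classical in
/-- `μ(d) N(d)^{-2}` for primary `d` -/
noncomputable def mt (d : O) : ℝ := if Primary d then (mu d : ℝ) * ((N d : ℝ) ^ 2)⁻¹ else 0

theorem mt_pos {d : O} (h : Primary d) : mt d = (mu d : ℝ) * ((N d : ℝ) ^ 2)⁻¹ := by
  rw [mt, if_pos h]

theorem mt_neg {d : O} (h : ¬ Primary d) : mt d = 0 := by rw [mt, if_neg h]

theorem summable_mt : Summable mt := summable_Z2

theorem Z2_eq : Z2 = ∑' d, mt d := rfl

theorem fibre_sum (n : O) :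
    ∑' x : (fun x : O × O => x.1 * x.2) ⁻¹' {n},
      mt x.1.1 * zt (fun b => Primary b ∧ IsCoprime b 1) x.1.2 =
      @ite ℝ (n = 1) (Classical.propDecidable _) 1 0 := by
  classical
  by_cases hn : Primary n
  · have hn0 := hn.ne_zero
    set F : O → ℝ := fun a => if a ∈ dvs n then (mu a : ℝ) * ((N n : ℝ) ^ 2)⁻¹ else 0 with hF
    have h1 : ∀ x : (fun x : O × O => x.1 * x.2) ⁻¹' {n},
        mt x.1.1 * zt (fun b => Primary b ∧ IsCoprime b 1) x.1.2 = F x.1.1 := by
      rintro ⟨⟨a, b⟩, hx⟩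
      have hx' : a * b = n := hx
      simp only [hF]
      by_cases ha : Primary a
      · have hb : Primary b := hn.quot ha hx'.symm
        have had : a ∈ dvs n := (mem_dvs hn0).2 ⟨ha, ⟨b, hx'.symm⟩⟩
        rw [mt_pos ha, if_pos had, zt_pos ⟨hb, isCoprime_one_right⟩, ← hx', N_mul]
        push_cast
        rw [mul_pow, mul_inv]
        ring
      · have had : a ∉ dvs n := fun h => ha ((mem_dvs hn0).1 h).1
        rw [mt_neg ha, if_neg had, zero_mul]
    have hinj : Function.Injective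
        (fun x : (fun x : O × O => x.1 * x.2) ⁻¹' {n} => x.1.1) := by
      rintro ⟨⟨a, b⟩, hx⟩ ⟨⟨a', b'⟩, hx'⟩ h
      have e1 : a = a' := h
      have e2 : a * b = n := hx
      have e3 : a' * b' = n := hx'
      subst e1
      have ha : a ≠ 0 := by
        rintro rfl
        rw [zero_mul] at e2
        exact hn0 e2.symm
      have e4 : b = b' := mul_left_cancel₀ ha (e2.trans e3.symm)
      subst e4
      rfl
    have hsupp : Function.support F ⊆ Set.range
        (fun x : (fun x : O × O => x.1 * x.2) ⁻¹' {n} => x.1.1) := by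
      intro a ha
      rw [Function.mem_support] at ha
      have had : a ∈ dvs n := by
        by_contra hcon
        exact ha (by simp only [hF, if_neg hcon])
      obtain ⟨c, hc⟩ := ((mem_dvs hn0).1 had).2
      exact ⟨⟨(a, c), hc.symm⟩, rfl⟩
    rw [tsum_congr h1, hinj.tsum_eq hsupp, tsum_eq_sum (s := dvs n)]
    · have h2 : ∀ a ∈ dvs n, F a = (mu a : ℝ) * ((N n : ℝ) ^ 2)⁻¹ := fun a ha => by
        simp only [hF, if_pos ha]
      rw [sum_congr rfl h2, ← sum_mul, sum_mu_dvs hn]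
      by_cases h5 : n = 1
      · subst h5; simp
      · simp [h5]
    · intro a ha
      simp only [hF, if_neg ha]
  · have hn1 : n ≠ 1 := fun h => hn (h ▸ primary_one)
    rw [if_neg hn1]
    have h4 : ∀ x : (fun x : O × O => x.1 * x.2) ⁻¹' {n},
        mt x.1.1 * zt (fun b => Primary b ∧ IsCoprime b 1) x.1.2 = 0 := by
      rintro ⟨⟨a, b⟩, hx⟩
      have hx' : a * b = n := hx
      by_cases ha : Primary a
      · by_cases hb : Primary b
        · exact absurd (hx' ▸ ha.mul hb) hn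
        · change mt a * zt _ b = 0
          rw [zt_neg (fun h => hb h.1), mul_zero]
      · change mt a * zt _ b = 0
        rw [mt_neg ha, zero_mul]
    rw [tsum_congr h4, tsum_zero]

/-- `ζ · ζ⁻¹ = 1` at `2` -/
theorem Z2_mul_Zc_one : Z2 * Zc 1 = 1 := by
  classical
  have hprod := summable_mul_of_summable_norm summable_mt.norm
    (summable_zt (fun b => Primary b ∧ IsCoprime b 1)).norm
  have h1 : Z2 * Zc 1 = ∑' z : O × O, mt z.1 * zt (fun b => Primary b ∧ IsCoprime b 1) z.2 := by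
    rw [Z2_eq, Zc]
    exact tsum_mul_tsum_of_summable_norm summable_mt.norm
      (summable_zt (fun b => Primary b ∧ IsCoprime b 1)).norm
  have h2 := hprod.hasSum.tsum_fiberwise (fun x : O × O => x.1 * x.2)
  rw [h1, ← h2.tsum_eq, tsum_congr fibre_sum, tsum_eq_single 1]
  · simp
  · intro n hn
    simp [hn]

/-- `∏_{p ∣ D} (1 - 1 / N p)` -/
noncomputable def dn (D : O) : ℝ := ∏ p ∈ pdv D, (1 - 1 / (N p : ℝ))

theorem dn_one : dn 1 = 1 := by rw [dn, pdv_one, prod_empty]

theorem dn_mul {p D : O} (hp : Prime p) (hpp : Primary p) (hD : Primary D) (hpD : ¬ p ∣ D) :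
    dn (p * D) = (1 - 1 / (N p : ℝ)) * dn D := by
  rw [dn, pdv_mul hpp hD, pdv_prime hp hpp, ← insert_eq, prod_insert, dn]
  rw [mem_pdv hD.ne_zero]
  exact fun h => hpD h.2.2

/-- the constant of the third main term: `kap · N(D) vr(D) · Zc(D) = C₀ ∏_{p ∣ D} (1 - 1/N p)` -/
theorem const_identity {D : O} (hD : Primary D) (hs : Squarefree D) :
    kap * ((N D : ℝ) * vr D) * Zc D = C0 * dn D := by
  refine HB.sf_induction (P := fun D => kap * ((N D : ℝ) * vr D) * Zc D = C0 * dn D) ?_ ?_ D hD hs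
  · rw [vr_one, dn_one, N_one, kap]
    have := Z2_mul_Zc_one
    push_cast
    linear_combination C0 * this
  · intro p k hpp hp hk _ hpk ih
    have hN : (0 : ℝ) < N p := by exact_mod_cast N_pos hp.ne_zero
    rw [vr_mul hp hpp hk ((hp.coprime_iff_not_dvd).1 hpk), Zc_rec hp hpp hpk, N_mul,
      dn_mul hp hpp hk ((hp.coprime_iff_not_dvd).1 hpk)]
    push_cast
    have h1 : (N p : ℝ) * ((N p : ℝ) + 1)⁻¹ * (1 - ((N p : ℝ) ^ 2)⁻¹) = 1 - 1 / (N p : ℝ) := by
      field_simp
      ring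
    calc kap * ((N p : ℝ) * (N k : ℝ) * (((N p : ℝ) + 1)⁻¹ * vr k)) *
        ((1 - ((N p : ℝ) ^ 2)⁻¹) * Zc k)
        = ((N p : ℝ) * ((N p : ℝ) + 1)⁻¹ * (1 - ((N p : ℝ) ^ 2)⁻¹)) *
          (kap * ((N k : ℝ) * vr k) * Zc k) := by ring
      _ = _ := by rw [h1, ih]; ring

end Vale.Agent.P006.CM
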