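import Vale.Agent.P006.CM.CubeSum
import Vale.Agent.P006.FINE.Der
import Vale.Agent.P006.H485.Decay
import Vale.Agent.P006.GRAM.Lattice
import Vale.Agent.P006.V1.Moebius

/-!
P006, block CM: `L²` theory of `V ↦ V°` and the uniform cube sum.
-/

namespace Vale.Agent.P006.CM

open MeasureTheory Set Filter Topology
open scoped FourierTransform SchwartzMap ComplexConjugate ContDiff
open Vale.Agent.P006.PO (Wt)
open Vale.Agent.P006.FINE (D1 Dop)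

/-- polar coordinates for functions of `|z|²` -/
theorem integral_sq (φ : ℝ → ℂ) :
    ∫ z : ℂ, φ (‖z‖ ^ 2) = Real.pi * ∫ u in Ioi (0 : ℝ), φ u := by
  rw [integral_radial (fun r => φ (r ^ 2))]
  have hs := integral_comp_rpow_Ioi_of_pos (g := φ) (p := 2) (by norm_num)
  rw [← hs, ← integral_const_mul, ← integral_const_mul]
  refine setIntegral_congr_fun measurableSet_Ioi fun x hx => ?_
  have hx : 0 < x := hx
  have e1 : x ^ (2 : ℝ) = x ^ 2 := by rw [← Real.rpow_natCast]; norm_num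
  have e2 : x ^ ((2 : ℝ) - 1) = x := by norm_num
  simp only [e1, e2, Complex.real_smul]
  push_cast
  ring

theorem integral_sq_real (φ : ℝ → ℝ) :
    ∫ z : ℂ, φ (‖z‖ ^ 2) = Real.pi * ∫ u in Ioi (0 : ℝ), φ u := by
  have h := integral_sq (fun u => ((φ u : ℝ) : ℂ))
  rw [integral_complex_ofReal, integral_complex_ofReal] at h
  exact_mod_cast h

theorem fourier_radS {V : ℝ → ℂ} (hV : Wt V) (w : ℂ) :
    (𝓕 hV.radS : 𝓢(ℂ, ℂ)) w = PO.Vo V (‖w‖ ^ 2 / 4) := by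
  have h1 : PO.FT (PO.rad V) (conj w / 2) = 𝓕 (PO.rad V) w := by
    have h0 : (2 : ℂ) * conj (conj w / 2) = w := by
      rw [map_div₀, Complex.conj_conj, Complex.conj_ofNat]
      ring
    rw [PO.FT_eq_fourier, h0]
  rw [SchwartzMap.fourier_coe, Wt.coe_radS, ← h1, PO.FT_rad, norm_div, Complex.norm_conj]
  norm_num [div_pow]

/-- **Plancherel** for `V ↦ V°` -/
theorem plancherel_Vo {V : ℝ → ℂ} (hV : Wt V) :
    ∫ x in Ioi (0 : ℝ), ‖PO.Vo V x‖ ^ 2 = (1 / 4) * ∫ u in Ioi (0 : ℝ), ‖V u‖ ^ 2 := by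
  have h := SchwartzMap.integral_norm_sq_fourier hV.radS
  simp_rw [fourier_radS hV, Wt.radS_apply, PO.rad] at h
  rw [integral_sq_real (fun u => ‖PO.Vo V (u / 4)‖ ^ 2),
    integral_sq_real (fun u => ‖V u‖ ^ 2)] at h
  have h2 : ∫ u in Ioi (0 : ℝ), ‖PO.Vo V (u / 4)‖ ^ 2 =
      4 * ∫ x in Ioi (0 : ℝ), ‖PO.Vo V x‖ ^ 2 := by
    have h3 := integral_comp_mul_left_Ioi (fun x => ‖PO.Vo V x‖ ^ 2) 0
      (show (0 : ℝ) < 1 / 4 by norm_num)
    simp only [mul_zero, smul_eq_mul, one_div, inv_inv] at h3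
    rw [← h3]
    congr 1
    ext u
    rw [div_eq_mul_inv, mul_comm]
  rw [h2] at h
  have hpi := Real.pi_pos
  have h4 : 4 * ∫ x in Ioi (0 : ℝ), ‖PO.Vo V x‖ ^ 2 = ∫ u in Ioi (0 : ℝ), ‖V u‖ ^ 2 :=
    mul_left_cancel₀ hpi.ne' h
  linarith

theorem integrableOn_of_le {f : ℝ → ℝ} (hm : AEStronglyMeasurable f (volume.restrict (Ioi 0)))
    {C : ℝ} (h : ∀ x, 0 < x → |f x| ≤ C * (1 + x ^ 2)⁻¹) : IntegrableOn f (Ioi 0) := by
  refine Integrable.mono' ((integrable_inv_one_add_sq.const_mul C).integrableOn) hm ?_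
  exact (ae_restrict_mem measurableSet_Ioi).mono fun x hx => h x hx

theorem Vo_bound {V : ℝ → ℂ} (hV : Wt V) {x : ℝ} (hx : 0 ≤ x) :
    ‖PO.Vo V x‖ ≤ 2 * PO.KV V * (1 + x ^ 2)⁻¹ := by
  have h := PO.Vo_decay2 hV hx
  have hK := PO.KV_nonneg V
  refine h.trans ?_
  rw [div_eq_mul_inv]
  gcongr
  nlinarith

theorem integrableOn_Vo {V : ℝ → ℂ} (hV : Wt V) :
    IntegrableOn (fun x => ‖PO.Vo V x‖) (Ioi 0) := by
  refine integrableOn_of_le (C := 2 * PO.KV V) hV.Vo_continuous.norm.aestronglyMeasurable ?_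
  intro x hx
  rw [abs_of_nonneg (norm_nonneg _)]
  exact Vo_bound hV hx.le

theorem integrableOn_Vo_sq {V : ℝ → ℂ} (hV : Wt V) :
    IntegrableOn (fun x => ‖PO.Vo V x‖ ^ 2) (Ioi 0) := by
  refine integrableOn_of_le (C := (2 * PO.KV V) ^ 2)
    (hV.Vo_continuous.norm.pow 2).aestronglyMeasurable ?_
  intro x hx
  have hK := PO.KV_nonneg V
  rw [abs_of_nonneg (by positivity)]
  have h := Vo_bound hV hx.le
  have h1 : (1 + x ^ 2)⁻¹ ≤ 1 := inv_le_one_of_one_le₀ (by nlinarith)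
  calc ‖PO.Vo V x‖ ^ 2 ≤ (2 * PO.KV V * (1 + x ^ 2)⁻¹) ^ 2 := by gcongr
    _ = (2 * PO.KV V) ^ 2 * ((1 + x ^ 2)⁻¹ * (1 + x ^ 2)⁻¹) := by ring
    _ ≤ (2 * PO.KV V) ^ 2 * ((1 + x ^ 2)⁻¹ * 1) := by gcongr
    _ = _ := by ring

/-! ### derivatives -/

/-- `u V(u)` -/
noncomputable def XV (V : ℝ → ℂ) (u : ℝ) : ℂ := (u : ℂ) * V u

theorem wt_XV {V : ℝ → ℂ} (hV : Wt V) : Wt (XV V) :=
  hV.mul_left Complex.ofRealCLM.contDiff

theorem hasDerivAt_Vo {V : ℝ → ℂ} (hV : Wt V) {x : ℝ} (hx : 0 < x) :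
    HasDerivAt (PO.Vo V) (-PO.Vo (D1 V) x / x) x := by
  have h1 := FINE.hasDerivAt_Vo_exp hV (x := 1) zero_le_one (Real.log x)
  simp only [one_mul, Real.exp_log hx] at h1
  have h2 : HasDerivAt Real.log x⁻¹ x := Real.hasDerivAt_log hx.ne'
  have h3 := h1.scomp x h2
  have h4 : (fun v => PO.Vo V (Real.exp v)) ∘ Real.log =ᶠ[𝓝 x] PO.Vo V := by
    filter_upwards [Ioi_mem_nhds hx] with y hy
    simp only [Function.comp_apply, Real.exp_log hy]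
  have h5 := h3.congr_of_eventuallyEq h4.symm
  refine h5.congr_deriv ?_
  rw [Complex.real_smul]
  push_cast
  ring

theorem D1_D1 {V : ℝ → ℂ} : D1 (D1 V) = fun u => (1 / 4 : ℂ) * Dop (XV V) u := by
  funext u
  rw [Dop]
  have : D1 V = deriv (XV V) := rfl
  rw [this]
  ring

theorem Vo_const_mul (c : ℂ) (V : ℝ → ℂ) (x : ℝ) :
    PO.Vo (fun u => c * V u) x = c * PO.Vo V x := by
  rw [PO.Vo, PO.Vo, PO.FT, PO.FT, ← integral_const_mul]
  congr 1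
  ext z
  rw [PO.rad, PO.rad]
  ring

theorem Vo_D1_D1 {V : ℝ → ℂ} (hV : Wt V) {x : ℝ} (hx : 0 ≤ x) :
    PO.Vo (D1 (D1 V)) x = -(4 * Real.pi ^ 2 * x : ℝ) * PO.Vo (XV V) x := by
  rw [D1_D1, Vo_const_mul, FINE.lap_identity (wt_XV hV) hx]
  push_cast
  ring

theorem hasDerivAt_Vo_D1 {V : ℝ → ℂ} (hV : Wt V) {x : ℝ} (hx : 0 < x) :
    HasDerivAt (PO.Vo (D1 V)) ((4 * Real.pi ^ 2 : ℝ) * PO.Vo (XV V) x) x := by
  have h := hasDerivAt_Vo (FINE.wt_D1 hV) hx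
  refine h.congr_deriv ?_
  rw [Vo_D1_D1 hV hx.le]
  have : (x : ℂ) ≠ 0 := by exact_mod_cast hx.ne'
  push_cast
  field_simp

theorem Vo_D1_zero {V : ℝ → ℂ} (hV : Wt V) : PO.Vo (D1 V) 0 = 0 := by
  have h1 := FINE.hasDerivAt_Vo_exp hV (x := 0) le_rfl 0
  simp only [zero_mul] at h1
  have h2 := h1.unique (hasDerivAt_const (0 : ℝ) (PO.Vo V 0))
  rwa [neg_eq_zero] at h2

/-- `∫ |rad V|` -/
noncomputable def L1 (V : ℝ → ℂ) : ℝ := ∫ z : ℂ, ‖PO.rad V z‖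

theorem norm_Vo_D1_le {V : ℝ → ℂ} (hV : Wt V) {x : ℝ} (hx : 0 ≤ x) :
    ‖PO.Vo (D1 V) x‖ ≤ 4 * Real.pi ^ 2 * L1 (XV V) * x := by
  have hpi := Real.pi_pos
  have h := norm_image_sub_le_of_norm_deriv_right_le_segment (f := PO.Vo (D1 V))
    (f' := fun x => (4 * Real.pi ^ 2 : ℝ) * PO.Vo (XV V) x) (a := 0) (b := x)
    (C := 4 * Real.pi ^ 2 * L1 (XV V)) (FINE.wt_D1 hV).Vo_continuous.continuousOn ?_ ?_
  · have := h x ⟨hx, le_rfl⟩
    rwa [Vo_D1_zero hV, sub_zero, sub_zero] at this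
  · intro y hy
    rcases eq_or_lt_of_le hy.1 with h0 | h0
    · -- the derivative at `0` from the right, by continuity
      subst h0
      have hc := (wt_XV hV).Vo_continuous
      refine hasDerivWithinAt_Ici_of_tendsto_deriv (s := Ioi (0 : ℝ)) ?_ ?_ ?_ ?_
      · intro z hz
        exact (hasDerivAt_Vo_D1 hV hz).differentiableAt.differentiableWithinAt
      · exact (FINE.wt_D1 hV).Vo_continuous.continuousWithinAt
      · exact self_mem_nhdsWithin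
      · have h3 : Tendsto (fun x => ((4 * Real.pi ^ 2 : ℝ) : ℂ) * PO.Vo (XV V) x) (𝓝[>] 0)
            (𝓝 (((4 * Real.pi ^ 2 : ℝ) : ℂ) * PO.Vo (XV V) 0)) :=
          ((continuous_const.mul hc).tendsto 0).mono_left nhdsWithin_le_nhds
        refine h3.congr' ?_
        filter_upwards [self_mem_nhdsWithin] with z hz
        exact (hasDerivAt_Vo_D1 hV hz).deriv.symm
    · exact (hasDerivAt_Vo_D1 hV h0).hasDerivWithinAt
  · intro y _
    rw [norm_mul, Complex.norm_real, Real.norm_of_nonneg (by positivity)]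
    have := PO.norm_Vo_le (XV V) y
    rw [L1]
    gcongr

/-! ### the two integrals -/

theorem integral_inv_sq {lam : ℝ} (hl : 0 < lam) :
    IntegrableOn (fun x : ℝ => ((1 + lam * x) ^ 2)⁻¹) (Ioi 0) ∧
      ∫ x in Ioi (0 : ℝ), ((1 + lam * x) ^ 2)⁻¹ = lam⁻¹ := by
  have hd : ∀ x ∈ Ici (0 : ℝ), HasDerivAt (fun x : ℝ => -(lam⁻¹ * (1 + lam * x)⁻¹))
      (((1 + lam * x) ^ 2)⁻¹) x := by
    intro x hx
    have hx : 0 ≤ x := hx
    have h0 : 1 + lam * x ≠ 0 := by positivity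
    have h1 : HasDerivAt (fun x : ℝ => 1 + lam * x) lam x := by
      simpa using ((hasDerivAt_id x).const_mul lam).const_add 1
    have h2 := ((h1.inv h0).const_mul lam⁻¹).neg
    refine h2.congr_deriv ?_
    field_simp
  have ht : Tendsto (fun x : ℝ => -(lam⁻¹ * (1 + lam * x)⁻¹)) atTop (𝓝 (-(lam⁻¹ * 0))) := by
    refine (Tendsto.const_mul _ ?_).neg
    refine tendsto_inv_atTop_zero.comp ?_
    exact tendsto_atTop_add_const_left _ _ (tendsto_id.const_mul_atTop hl)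
  have hi := integrableOn_Ioi_deriv_of_nonneg' (a := 0) hd (fun x _ => by positivity) ht
  refine ⟨hi, ?_⟩
  rw [integral_Ioi_of_hasDerivAt_of_tendsto' hd hi ht]
  simp

theorem integrable_FT (f : 𝓢(ℂ, ℂ)) (y : ℂ) : Integrable (fun z => PO.eT (-(z * y)) * f z) := by
  refine f.integrable.norm.mono' ?_ (Eventually.of_forall fun z => ?_)
  · exact ((PO.continuous_eT.comp (by fun_prop)).mul f.continuous).aestronglyMeasurable
  · rw [norm_mul, PO.norm_eT, one_mul]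

/-- first integral, by Cauchy-Schwarz (AM-GM form) and Plancherel -/
theorem int_Vo_le {V : ℝ → ℂ} (hV : Wt V) {lam ε : ℝ} (hl : 0 < lam) (hε : 0 < ε) :
    ∫ x in Ioi (0 : ℝ), ‖PO.Vo V x‖ ≤ ε / 2 * lam⁻¹ +
      1 / (8 * ε) * ∫ u in Ioi (0 : ℝ), ‖V u - (lam / (4 * Real.pi ^ 2) : ℝ) * PO.DV V u‖ ^ 2 := by
  set W : ℝ → ℂ := fun u => V u - (lam / (4 * Real.pi ^ 2) : ℝ) * PO.DV V u with hW
  have hWt : Wt W := by
    have h1 := hV.add (hV.DV.const_mul (-((lam / (4 * Real.pi ^ 2) : ℝ) : ℂ)))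
    have h2 : W = fun x => V x + -((lam / (4 * Real.pi ^ 2) : ℝ) : ℂ) * PO.DV V x := by
      funext x; rw [hW]; ring
    rw [h2]; exact h1
  have hVW : ∀ x, 0 ≤ x → PO.Vo W x = ((1 + lam * x : ℝ) : ℂ) * PO.Vo V x := by
    intro x hx
    have h1 : PO.Vo W x = PO.Vo V x - ((lam / (4 * Real.pi ^ 2) : ℝ) : ℂ) * PO.Vo (PO.DV V) x := by
      rw [PO.Vo, PO.Vo, PO.Vo, PO.FT, PO.FT, PO.FT, ← integral_const_mul, ← integral_sub]
      · congr 1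
        ext z
        rw [PO.rad, PO.rad, PO.rad, hW]
        ring
      · exact integrable_FT hV.radS ((Real.sqrt x : ℝ) : ℂ)
      · exact (integrable_FT hV.DV.radS ((Real.sqrt x : ℝ) : ℂ)).const_mul _
    rw [h1, PO.Vo_DV hV hx]
    have hpi : (Real.pi : ℂ) ≠ 0 := by exact_mod_cast Real.pi_ne_zero
    push_cast
    field_simp
    ring
  obtain ⟨hi, he⟩ := integral_inv_sq hl
  have hI := integrableOn_Vo_sq hWt
  have hP := plancherel_Vo hWt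
  have key : ∀ x ∈ Ioi (0 : ℝ), ‖PO.Vo V x‖ ≤ ε / 2 * ((1 + lam * x) ^ 2)⁻¹ +
      1 / (2 * ε) * ‖PO.Vo W x‖ ^ 2 := by
    intro x hx
    have hx : 0 < x := hx
    have h0 : 0 < 1 + lam * x := by positivity
    have h1 : ‖PO.Vo V x‖ = (1 + lam * x)⁻¹ * ‖PO.Vo W x‖ := by
      rw [hVW x hx.le, norm_mul, Complex.norm_real, Real.norm_of_nonneg h0.le]
      field_simp
    rw [h1, ← inv_pow]
    set a := (1 + lam * x)⁻¹
    set c := ‖PO.Vo W x‖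
    have h2 : 0 ≤ (ε * a - c) ^ 2 / (2 * ε) := by positivity
    have h3 : (ε * a - c) ^ 2 / (2 * ε) = ε / 2 * a ^ 2 + 1 / (2 * ε) * c ^ 2 - a * c := by
      field_simp
      ring
    linarith
  calc ∫ x in Ioi (0 : ℝ), ‖PO.Vo V x‖ ≤ ∫ x in Ioi (0 : ℝ), (ε / 2 * ((1 + lam * x) ^ 2)⁻¹ +
      1 / (2 * ε) * ‖PO.Vo W x‖ ^ 2) := by
        exact setIntegral_mono_on (integrableOn_Vo hV) ((hi.const_mul _).add (hI.const_mul _))
          measurableSet_Ioi key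
    _ = ε / 2 * lam⁻¹ + 1 / (2 * ε) * ((1 / 4) * ∫ u in Ioi (0 : ℝ), ‖W u‖ ^ 2) := by
        rw [integral_add (hi.const_mul _) (hI.const_mul _), integral_const_mul, integral_const_mul,
          he, hP]
    _ = _ := by
        rw [hW]
        field_simp
        ring

theorem Vo_D1_div_bound {V : ℝ → ℂ} (hV : Wt V) {x : ℝ} (hx : 0 < x) :
    ‖PO.Vo (D1 V) x‖ / x ≤
      (8 * Real.pi ^ 2 * L1 (XV V) + 2 * PO.KV (D1 V)) * (1 + x ^ 2)⁻¹ := by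
  have hK := PO.KV_nonneg (D1 V)
  have hL : 0 ≤ L1 (XV V) := by rw [L1]; positivity
  have hpi := Real.pi_pos
  have hx2 : 0 < 1 + x ^ 2 := by positivity
  rw [← div_eq_mul_inv, div_le_div_iff₀ hx hx2]
  rcases le_total x 1 with h1 | h1
  · have h2 := norm_Vo_D1_le hV hx.le
    have h3 : 1 + x ^ 2 ≤ 2 := by nlinarith
    have h4 : 0 ≤ 2 * PO.KV (D1 V) * x := by positivity
    calc ‖PO.Vo (D1 V) x‖ * (1 + x ^ 2) ≤ (4 * Real.pi ^ 2 * L1 (XV V) * x) * 2 := by gcongr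
      _ = 8 * Real.pi ^ 2 * L1 (XV V) * x := by ring
      _ ≤ (8 * Real.pi ^ 2 * L1 (XV V) + 2 * PO.KV (D1 V)) * x := by nlinarith
  · have h2 := Vo_bound (FINE.wt_D1 hV) hx.le
    have h4 : 0 ≤ 8 * Real.pi ^ 2 * L1 (XV V) * x := by positivity
    calc ‖PO.Vo (D1 V) x‖ * (1 + x ^ 2) ≤ (2 * PO.KV (D1 V) * (1 + x ^ 2)⁻¹) * (1 + x ^ 2) := by
          gcongr
      _ = 2 * PO.KV (D1 V) := by field_simp
      _ ≤ 2 * PO.KV (D1 V) * x := by
          have : 0 ≤ 2 * PO.KV (D1 V) := by positivity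
          nlinarith
      _ ≤ (8 * Real.pi ^ 2 * L1 (XV V) + 2 * PO.KV (D1 V)) * x := by nlinarith

theorem integrableOn_Vo_D1_div {V : ℝ → ℂ} (hV : Wt V) :
    IntegrableOn (fun x => ‖PO.Vo (D1 V) x‖ / x) (Ioi 0) := by
  refine integrableOn_of_le (C := 8 * Real.pi ^ 2 * L1 (XV V) + 2 * PO.KV (D1 V)) ?_ ?_
  · exact ((FINE.wt_D1 hV).Vo_continuous.norm.measurable.div measurable_id).aestronglyMeasurable
  · intro x hx
    rw [abs_of_nonneg (by positivity)]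
    exact Vo_D1_div_bound hV hx

/-- second integral -/
theorem int_Vo_D1_le {V : ℝ → ℂ} (hV : Wt V) {ε : ℝ} (hε : 0 < ε) :
    ∫ x in Ioi (0 : ℝ), ‖PO.Vo (D1 V) x‖ / x ≤ 16 * Real.pi ^ 2 * L1 (XV V) + 2 * ε +
      1 / (8 * ε) * ∫ u in Ioi (0 : ℝ), ‖D1 V u‖ ^ 2 := by
  have hpi := Real.pi_pos
  have hL : 0 ≤ L1 (XV V) := by rw [L1]; positivity
  obtain ⟨hi, he⟩ := integral_inv_sq (lam := 1) one_pos
  simp only [one_mul] at hi he
  have hI := integrableOn_Vo_sq (FINE.wt_D1 hV)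
  have hP := plancherel_Vo (FINE.wt_D1 hV)
  set M := 4 * Real.pi ^ 2 * L1 (XV V) with hM
  have hM0 : 0 ≤ M := by positivity
  have key : ∀ x ∈ Ioi (0 : ℝ), ‖PO.Vo (D1 V) x‖ / x ≤ (4 * M + 2 * ε) * ((1 + x) ^ 2)⁻¹ +
      1 / (2 * ε) * ‖PO.Vo (D1 V) x‖ ^ 2 := by
    intro x hx
    have hx : 0 < x := hx
    have h1x : 0 < (1 + x) ^ 2 := by positivity
    rcases le_total x 1 with h1 | h1
    · have h2 := norm_Vo_D1_le hV hx.le
      rw [← hM] at h2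
      have h3 : ‖PO.Vo (D1 V) x‖ / x ≤ M := by rw [div_le_iff₀ hx]; exact h2
      have h4 : M ≤ 4 * M * ((1 + x) ^ 2)⁻¹ := by
        rw [← div_eq_mul_inv, le_div_iff₀ h1x]
        have : (1 + x) ^ 2 ≤ 4 := by nlinarith
        nlinarith
      have h5 : 0 ≤ 2 * ε * ((1 + x) ^ 2)⁻¹ := by positivity
      have h6 : 0 ≤ 1 / (2 * ε) * ‖PO.Vo (D1 V) x‖ ^ 2 := by positivity
      nlinarith
    · set c := ‖PO.Vo (D1 V) x‖ with hc
      have h2 : 0 ≤ (ε * x⁻¹ - c) ^ 2 / (2 * ε) := by positivity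
      have h3 : (ε * x⁻¹ - c) ^ 2 / (2 * ε) = ε / 2 * (x⁻¹) ^ 2 + 1 / (2 * ε) * c ^ 2 - c / x := by
        field_simp
        ring
      have h4 : ε / 2 * (x⁻¹) ^ 2 ≤ 2 * ε * ((1 + x) ^ 2)⁻¹ := by
        rw [inv_pow, ← div_eq_mul_inv, ← div_eq_mul_inv, div_div, div_le_div_iff₀ (by positivity) h1x]
        have : (1 + x) ^ 2 ≤ 4 * x ^ 2 := by nlinarith
        nlinarith
      have h5 : 0 ≤ 4 * M * ((1 + x) ^ 2)⁻¹ := by positivity
      nlinarith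
  calc ∫ x in Ioi (0 : ℝ), ‖PO.Vo (D1 V) x‖ / x ≤
      ∫ x in Ioi (0 : ℝ), ((4 * M + 2 * ε) * ((1 + x) ^ 2)⁻¹ +
        1 / (2 * ε) * ‖PO.Vo (D1 V) x‖ ^ 2) := by
        exact setIntegral_mono_on (integrableOn_Vo_D1_div hV)
          ((hi.const_mul _).add (hI.const_mul _)) measurableSet_Ioi key
    _ = (4 * M + 2 * ε) * 1⁻¹ + 1 / (2 * ε) * ((1 / 4) * ∫ u in Ioi (0 : ℝ), ‖D1 V u‖ ^ 2) := by
        rw [integral_add (hi.const_mul _) (hI.const_mul _), integral_const_mul, integral_const_mul,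
          he, hP]
    _ = _ := by
        rw [hM]
        field_simp
        ring

/-! ### the cube sum through the lattice lemma -/

theorem pow_le_aux {t : ℝ} (ht : 0 < t) :
    t ^ 2 * ((1 + t ^ 3) ^ 2)⁻¹ ≤ 2 * (1 + t ^ 2)⁻¹ ∧
    t ^ 3 * ((1 + t ^ 3) ^ 2)⁻¹ ≤ 2 * (1 + t ^ 2)⁻¹ ∧
    ((1 + t ^ 3) ^ 2)⁻¹ ≤ 2 * (1 + t ^ 2)⁻¹ := by
  have h1 : 0 < (1 + t ^ 3) ^ 2 := by positivity
  have h2 : 0 < 1 + t ^ 2 := by positivity
  have ht2 : 0 < t ^ 2 := by positivity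
  have ht3 : 0 < t ^ 3 := by positivity
  refine ⟨?_, ?_, ?_⟩
  · rw [← div_eq_mul_inv, ← div_eq_mul_inv, div_le_div_iff₀ h1 h2]
    rcases le_total t 1 with h | h
    · have : t ^ 2 ≤ 1 := by nlinarith
      nlinarith
    · have : t ^ 2 ≤ t ^ 3 := by nlinarith
      nlinarith [mul_le_mul this this ht2.le ht3.le]
  · rw [← div_eq_mul_inv, ← div_eq_mul_inv, div_le_div_iff₀ h1 h2]
    rcases le_total t 1 with h | h
    · have : t ^ 2 ≤ 1 := by nlinarith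
      nlinarith
    · have : t ^ 2 ≤ t ^ 3 := by nlinarith
      nlinarith [mul_le_mul this this ht2.le ht3.le]
  · rw [← div_eq_mul_inv, inv_eq_one_div, div_le_div_iff₀ h1 h2]
    rcases le_total t 1 with h | h
    · have : t ^ 2 ≤ 1 := by nlinarith
      nlinarith
    · have : t ^ 2 ≤ t ^ 3 := by nlinarith
      nlinarith

theorem hasDerivAt_g {V : ℝ → ℂ} (hV : Wt V) {s : ℝ} (hs : 0 < s) :
    HasDerivAt (fun s : ℝ => PO.Vo V (s ^ 3)) (-3 * PO.Vo (D1 V) (s ^ 3) / s) s := by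
  have h1 := hasDerivAt_Vo hV (x := s ^ 3) (by positivity)
  have h2 : HasDerivAt (fun s : ℝ => s ^ 3) (3 * s ^ 2) s := by
    simpa using hasDerivAt_pow 3 s
  have h3 := HasDerivAt.scomp (h := fun s : ℝ => s ^ 3) s h1 h2
  refine h3.congr_deriv ?_
  have : (s : ℂ) ≠ 0 := by exact_mod_cast hs.ne'
  rw [Complex.real_smul]
  push_cast
  field_simp

theorem hasDerivAt_g1 {V : ℝ → ℂ} (hV : Wt V) {s : ℝ} (hs : 0 < s) :
    HasDerivAt (fun s : ℝ => -3 * PO.Vo (D1 V) (s ^ 3) / s)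
      (-((36 * Real.pi ^ 2 * s : ℝ) : ℂ) * PO.Vo (XV V) (s ^ 3) +
        3 * PO.Vo (D1 V) (s ^ 3) / (s : ℂ) ^ 2) s := by
  have h1 := hasDerivAt_Vo_D1 hV (x := s ^ 3) (by positivity)
  have h2 : HasDerivAt (fun s : ℝ => s ^ 3) (3 * s ^ 2) s := by
    simpa using hasDerivAt_pow 3 s
  have h3 := (HasDerivAt.scomp (h := fun s : ℝ => s ^ 3) s h1 h2).const_mul (-3 : ℂ)
  have h4 : HasDerivAt (fun s : ℝ => (s : ℂ)) 1 s := (hasDerivAt_id s).ofReal_comp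
  have hs0 : (s : ℂ) ≠ 0 := by exact_mod_cast hs.ne'
  have h5 := h3.div h4 hs0
  refine h5.congr_deriv ?_
  simp only [Function.comp_apply, Complex.real_smul]
  push_cast
  field_simp
  ring

theorem tendsto_inv_sq : Tendsto (fun t : ℝ => (1 + t ^ 2)⁻¹) atTop (𝓝 0) := by
  apply tendsto_inv_atTop_zero.comp
  apply tendsto_atTop_add_const_left
  exact tendsto_pow_atTop (by norm_num)

/-- bound of the error of the cube sum by the two integrals -/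
theorem lattice_cube {V : ℝ → ℂ} (hV : Wt V) {y : ℝ} (hy : 0 < y) :
    Summable (fun ν : O => if ν = 0 then 0 else PO.Vo V ((y * N ν) ^ 3)) ∧
    ‖(∑' ν : O, if ν = 0 then 0 else PO.Vo V ((y * N ν) ^ 3)) -
      ((2 * Real.pi / (Real.sqrt 3 * y) : ℝ) : ℂ) * ∫ s in Ioi (0 : ℝ), PO.Vo V (s ^ 3)‖ ≤
      3000 * (12 * Real.pi ^ 2 * (∫ x in Ioi (0 : ℝ), ‖PO.Vo (XV V) x‖) +
        ∫ x in Ioi (0 : ℝ), ‖PO.Vo (D1 V) x‖ / x) := by
  have hpi := Real.pi_pos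
  have hX := wt_XV hV
  have hD := FINE.wt_D1 hV
  have hL : 0 ≤ L1 (XV V) := by rw [L1]; positivity
  have hKX := PO.KV_nonneg (XV V)
  have hKD := PO.KV_nonneg (D1 V)
  have hKV := PO.KV_nonneg V
  set h : ℝ → ℂ := fun s => -((36 * Real.pi ^ 2 * s : ℝ) : ℂ) * PO.Vo (XV V) (s ^ 3) +
        3 * PO.Vo (D1 V) (s ^ 3) / (s : ℂ) ^ 2 with hh
  have hmX : Measurable fun s : ℝ => PO.Vo (XV V) (s ^ 3) :=
    hX.Vo_continuous.measurable.comp (measurable_id.pow_const 3)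
  have hmD : Measurable fun s : ℝ => PO.Vo (D1 V) (s ^ 3) :=
    hD.Vo_continuous.measurable.comp (measurable_id.pow_const 3)
  have hmh : Measurable h := by
    rw [hh]
    refine Measurable.add (Measurable.mul ?_ hmX) (Measurable.div (hmD.const_mul _) ?_)
    · exact (Complex.measurable_ofReal.comp (measurable_id.const_mul _)).neg
    · exact Complex.measurable_ofReal.pow_const 2
  -- pointwise bounds
  have hnX : ∀ t, 0 < t → ‖PO.Vo (XV V) (t ^ 3)‖ ≤ 2 * PO.KV (XV V) * ((1 + t ^ 3) ^ 2)⁻¹ := by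
    intro t ht
    have := PO.Vo_decay2 hX (x := t ^ 3) (by positivity)
    rwa [div_eq_mul_inv] at this
  have hnD : ∀ t, 0 < t → ‖PO.Vo (D1 V) (t ^ 3)‖ ≤ 2 * PO.KV (D1 V) * ((1 + t ^ 3) ^ 2)⁻¹ := by
    intro t ht
    have := PO.Vo_decay2 hD (x := t ^ 3) (by positivity)
    rwa [div_eq_mul_inv] at this
  have hnh : ∀ t, 0 < t → ‖h t‖ ≤ 36 * Real.pi ^ 2 * t * ‖PO.Vo (XV V) (t ^ 3)‖ +
      3 * ‖PO.Vo (D1 V) (t ^ 3)‖ / t ^ 2 := by
    intro t ht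
    rw [hh]
    refine (norm_add_le _ _).trans (le_of_eq ?_)
    rw [norm_mul, norm_neg, Complex.norm_real, Real.norm_of_nonneg (by positivity), norm_div,
      norm_mul, norm_pow, Complex.norm_real, Real.norm_of_nonneg ht.le]
    norm_num
  have hA : ∀ t, 0 < t → t * ‖h t‖ ≤ 36 * Real.pi ^ 2 * (t ^ 2 * ‖PO.Vo (XV V) (t ^ 3)‖) +
      3 * (‖PO.Vo (D1 V) (t ^ 3)‖ / t) := by
    intro t ht
    calc t * ‖h t‖ ≤ t * (36 * Real.pi ^ 2 * t * ‖PO.Vo (XV V) (t ^ 3)‖ +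
      3 * ‖PO.Vo (D1 V) (t ^ 3)‖ / t ^ 2) := mul_le_mul_of_nonneg_left (hnh t ht) ht.le
      _ = _ := by field_simp
  have hDt : ∀ t, 0 < t → ‖PO.Vo (D1 V) (t ^ 3)‖ / t ≤
      (8 * Real.pi ^ 2 * L1 (XV V) + 4 * PO.KV (D1 V)) * (1 + t ^ 2)⁻¹ := by
    intro t ht
    obtain ⟨_, _, p3⟩ := pow_le_aux ht
    have h2 : 0 < 1 + t ^ 2 := by positivity
    rcases le_total t 1 with h1 | h1
    · have h3 := norm_Vo_D1_le hV (x := t ^ 3) (by positivity)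
      have h4 : ‖PO.Vo (D1 V) (t ^ 3)‖ / t ≤ 4 * Real.pi ^ 2 * L1 (XV V) * t ^ 2 := by
        rw [div_le_iff₀ ht]
        calc _ ≤ _ := h3
          _ = _ := by ring
      have h5 : t ^ 2 ≤ 1 := by nlinarith
      have h6 : (1 : ℝ) ≤ 2 * (1 + t ^ 2)⁻¹ := by
        rw [← div_eq_mul_inv, le_div_iff₀ h2]; linarith
      calc ‖PO.Vo (D1 V) (t ^ 3)‖ / t ≤ 4 * Real.pi ^ 2 * L1 (XV V) * t ^ 2 := h4
        _ ≤ 4 * Real.pi ^ 2 * L1 (XV V) * (2 * (1 + t ^ 2)⁻¹) := by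
            gcongr
            linarith
        _ ≤ _ := by
            have : 0 ≤ 4 * PO.KV (D1 V) * (1 + t ^ 2)⁻¹ := by positivity
            nlinarith
    · have h3 := hnD t ht
      calc ‖PO.Vo (D1 V) (t ^ 3)‖ / t ≤ ‖PO.Vo (D1 V) (t ^ 3)‖ := div_le_self (norm_nonneg _) h1
        _ ≤ 2 * PO.KV (D1 V) * ((1 + t ^ 3) ^ 2)⁻¹ := h3
        _ ≤ 2 * PO.KV (D1 V) * (2 * (1 + t ^ 2)⁻¹) := by gcongr
        _ ≤ _ := by
            have : 0 ≤ 8 * Real.pi ^ 2 * L1 (XV V) * (1 + t ^ 2)⁻¹ := by positivity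
            nlinarith
  have hXt : ∀ t, 0 < t → t ^ 2 * ‖PO.Vo (XV V) (t ^ 3)‖ ≤
      4 * PO.KV (XV V) * (1 + t ^ 2)⁻¹ := by
    intro t ht
    obtain ⟨p1, _, _⟩ := pow_le_aux ht
    calc t ^ 2 * ‖PO.Vo (XV V) (t ^ 3)‖ ≤ t ^ 2 * (2 * PO.KV (XV V) * ((1 + t ^ 3) ^ 2)⁻¹) := by
          have := hnX t ht
          gcongr
      _ = 2 * PO.KV (XV V) * (t ^ 2 * ((1 + t ^ 3) ^ 2)⁻¹) := by ring
      _ ≤ 2 * PO.KV (XV V) * (2 * (1 + t ^ 2)⁻¹) := by gcongr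
      _ = _ := by ring
  have hXt3 : ∀ t, 0 < t → t ^ 3 * ‖PO.Vo (XV V) (t ^ 3)‖ ≤
      4 * PO.KV (XV V) * (1 + t ^ 2)⁻¹ := by
    intro t ht
    obtain ⟨_, p1, _⟩ := pow_le_aux ht
    calc t ^ 3 * ‖PO.Vo (XV V) (t ^ 3)‖ ≤ t ^ 3 * (2 * PO.KV (XV V) * ((1 + t ^ 3) ^ 2)⁻¹) := by
          have := hnX t ht
          gcongr
      _ = 2 * PO.KV (XV V) * (t ^ 3 * ((1 + t ^ 3) ^ 2)⁻¹) := by ring
      _ ≤ 2 * PO.KV (XV V) * (2 * (1 + t ^ 2)⁻¹) := by gcongr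
      _ = _ := by ring
  have hD0 : ∀ t, 0 < t → ‖PO.Vo (D1 V) (t ^ 3)‖ ≤ 4 * PO.KV (D1 V) * (1 + t ^ 2)⁻¹ := by
    intro t ht
    obtain ⟨_, _, p1⟩ := pow_le_aux ht
    calc _ ≤ _ := hnD t ht
      _ ≤ 2 * PO.KV (D1 V) * (2 * (1 + t ^ 2)⁻¹) := by gcongr
      _ = _ := by ring
  have hI1 : IntegrableOn (fun t : ℝ => t ^ 2 * ‖PO.Vo (XV V) (t ^ 3)‖) (Ioi 0) := by
    refine integrableOn_of_le (C := 4 * PO.KV (XV V))
      ((measurable_id.pow_const 2).mul hmX.norm).aestronglyMeasurable fun t ht => ?_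
    rw [abs_of_nonneg (by positivity)]
    exact hXt t ht
  have hI2 : IntegrableOn (fun t : ℝ => ‖PO.Vo (D1 V) (t ^ 3)‖ / t) (Ioi 0) := by
    refine integrableOn_of_le (C := 8 * Real.pi ^ 2 * L1 (XV V) + 4 * PO.KV (D1 V))
      (hmD.norm.div measurable_id).aestronglyMeasurable fun t ht => ?_
    rw [abs_of_nonneg (by positivity)]
    exact hDt t ht
  have hIA : IntegrableOn (fun t => t * ‖h t‖) (Ioi 0) := by
    refine Integrable.mono' ((hI1.const_mul (36 * Real.pi ^ 2)).add (hI2.const_mul 3))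
      (measurable_id.mul hmh.norm).aestronglyMeasurable ?_
    refine (ae_restrict_mem measurableSet_Ioi).mono fun t ht => ?_
    have ht : 0 < t := ht
    rw [Real.norm_of_nonneg (by positivity)]
    exact hA t ht
  have hIB : IntegrableOn (fun t => t ^ 2 * ‖h t‖) (Ioi 0) := by
    refine integrableOn_of_le (C := 144 * Real.pi ^ 2 * PO.KV (XV V) + 12 * PO.KV (D1 V))
      ((measurable_id.pow_const 2).mul hmh.norm).aestronglyMeasurable fun t ht => ?_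
    rw [abs_of_nonneg (by positivity)]
    calc t ^ 2 * ‖h t‖ ≤ t ^ 2 * (36 * Real.pi ^ 2 * t * ‖PO.Vo (XV V) (t ^ 3)‖ +
          3 * ‖PO.Vo (D1 V) (t ^ 3)‖ / t ^ 2) :=
          mul_le_mul_of_nonneg_left (hnh t ht) (by positivity)
      _ = 36 * Real.pi ^ 2 * (t ^ 3 * ‖PO.Vo (XV V) (t ^ 3)‖) +
          3 * ‖PO.Vo (D1 V) (t ^ 3)‖ := by field_simp
      _ ≤ 36 * Real.pi ^ 2 * (4 * PO.KV (XV V) * (1 + t ^ 2)⁻¹) +
          3 * (4 * PO.KV (D1 V) * (1 + t ^ 2)⁻¹) := by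
          have h1 := hXt3 t ht
          have h2 := hD0 t ht
          gcongr
      _ = _ := by ring
  have hg0 : Tendsto (fun s : ℝ => PO.Vo V (s ^ 3)) atTop (𝓝 0) := by
    have h1 : Tendsto (fun t : ℝ => 4 * PO.KV V * (1 + t ^ 2)⁻¹) atTop (𝓝 0) := by
      simpa using tendsto_inv_sq.const_mul (4 * PO.KV V)
    refine squeeze_zero_norm' ?_ h1
    filter_upwards [eventually_gt_atTop 0] with t ht
    obtain ⟨_, _, p1⟩ := pow_le_aux ht
    have := PO.Vo_decay2 hV (x := t ^ 3) (by positivity)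
    rw [div_eq_mul_inv] at this
    calc _ ≤ _ := this
      _ ≤ 2 * PO.KV V * (2 * (1 + t ^ 2)⁻¹) := by gcongr
      _ = _ := by ring
  have hg10 : Tendsto (fun t : ℝ => (t : ℂ) * (-3 * PO.Vo (D1 V) (t ^ 3) / t)) atTop (𝓝 0) := by
    have h1 : Tendsto (fun t : ℝ => 12 * PO.KV (D1 V) * (1 + t ^ 2)⁻¹) atTop (𝓝 0) := by
      simpa using tendsto_inv_sq.const_mul (12 * PO.KV (D1 V))
    refine squeeze_zero_norm' ?_ h1
    filter_upwards [eventually_gt_atTop 0] with t ht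
    have ht0 : (t : ℂ) ≠ 0 := by exact_mod_cast ht.ne'
    have e1 : (t : ℂ) * (-3 * PO.Vo (D1 V) (t ^ 3) / t) = -3 * PO.Vo (D1 V) (t ^ 3) := by
      field_simp
    rw [e1, norm_mul]
    have := hD0 t ht
    norm_num
    linarith
  obtain ⟨r1, r2⟩ := GRAM.lattice_lemma (g := fun s : ℝ => PO.Vo V (s ^ 3))
    (g1 := fun s : ℝ => -3 * PO.Vo (D1 V) (s ^ 3) / s) (h := h) (fun s hs => hasDerivAt_g hV hs)
    (fun s hs => hasDerivAt_g1 hV hs) hmh.aestronglyMeasurable hIA hIB hg0 hg10 hy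
  refine ⟨r1, r2.trans ?_⟩
  have hsub1 : ∫ t in Ioi (0 : ℝ), t ^ 2 * ‖PO.Vo (XV V) (t ^ 3)‖ =
      (1 / 3) * ∫ x in Ioi (0 : ℝ), ‖PO.Vo (XV V) x‖ := by
    have h3 := integral_comp_rpow_Ioi_of_pos (g := fun x => ‖PO.Vo (XV V) x‖) (p := 3)
      (by norm_num)
    rw [← h3, ← integral_const_mul]
    refine setIntegral_congr_fun measurableSet_Ioi fun x hx => ?_
    have hx : 0 < x := hx
    have e1 : x ^ (3 : ℝ) = x ^ 3 := by rw [← Real.rpow_natCast]; norm_num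
    have e2 : x ^ ((3 : ℝ) - 1) = x ^ 2 := by
      rw [show ((3 : ℝ) - 1) = ((2 : ℕ) : ℝ) by norm_num, Real.rpow_natCast]
    simp only [e1, e2, smul_eq_mul]
    ring
  have hsub2 : ∫ t in Ioi (0 : ℝ), ‖PO.Vo (D1 V) (t ^ 3)‖ / t =
      (1 / 3) * ∫ x in Ioi (0 : ℝ), ‖PO.Vo (D1 V) x‖ / x := by
    have h3 := integral_comp_rpow_Ioi_of_pos (g := fun x => ‖PO.Vo (D1 V) x‖ / x) (p := 3)
      (by norm_num)
    rw [← h3, ← integral_const_mul]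
    refine setIntegral_congr_fun measurableSet_Ioi fun x hx => ?_
    have hx : 0 < x := hx
    have e1 : x ^ (3 : ℝ) = x ^ 3 := by rw [← Real.rpow_natCast]; norm_num
    have e2 : x ^ ((3 : ℝ) - 1) = x ^ 2 := by
      rw [show ((3 : ℝ) - 1) = ((2 : ℕ) : ℝ) by norm_num, Real.rpow_natCast]
    simp only [e1, e2, smul_eq_mul]
    field_simp
  have hle : ∫ t in Ioi (0 : ℝ), t * ‖h t‖ ≤ 12 * Real.pi ^ 2 *
      (∫ x in Ioi (0 : ℝ), ‖PO.Vo (XV V) x‖) + ∫ x in Ioi (0 : ℝ), ‖PO.Vo (D1 V) x‖ / x := by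
    have hIs : IntegrableOn (fun t : ℝ => 36 * Real.pi ^ 2 * (t ^ 2 * ‖PO.Vo (XV V) (t ^ 3)‖) +
          3 * (‖PO.Vo (D1 V) (t ^ 3)‖ / t)) (Ioi 0) :=
      (hI1.const_mul (36 * Real.pi ^ 2)).add (hI2.const_mul 3)
    calc ∫ t in Ioi (0 : ℝ), t * ‖h t‖ ≤ ∫ t in Ioi (0 : ℝ),
        (36 * Real.pi ^ 2 * (t ^ 2 * ‖PO.Vo (XV V) (t ^ 3)‖) +
          3 * (‖PO.Vo (D1 V) (t ^ 3)‖ / t)) :=
          setIntegral_mono_on hIA hIs measurableSet_Ioi fun t ht => hA t ht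
      _ = _ := by
          rw [integral_add (hI1.const_mul _) (hI2.const_mul _), integral_const_mul,
            integral_const_mul, hsub1, hsub2]
          ring
  linarith

/-! ### the main term -/

theorem int_Vo_cube {V : ℝ → ℂ} (hV : Wt V) :
    ∫ s in Ioi (0 : ℝ), PO.Vo V (s ^ 3) = (kapC / (2 * Real.pi) : ℝ) * IV V := by
  have hf : ∀ z : ℂ, hV.radS z = hV.radS (‖z‖ : ℂ) := by
    intro z
    rw [Wt.radS_apply, Wt.radS_apply, PO.rad, PO.rad, Complex.norm_real, norm_norm]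
  have h := integral_Fhat_cube_schwartz hV.radS hf
  have h1 : ∀ z : ℂ, cubeS (FhatS hV.radS) z = PO.Vo V ((‖z‖ ^ 2) ^ 3) := by
    intro z
    rw [cubeS_apply, FhatS_apply, Wt.coe_radS, ← FT_eq_Fhat, PO.FT_rad, norm_pow]
    congr 1
    ring
  simp_rw [h1] at h
  rw [integral_sq (fun u => PO.Vo V (u ^ 3))] at h
  have h2 : ∫ r in Ioi (0 : ℝ), hV.radS (r : ℂ) * ((r ^ (1 / 3 : ℝ) : ℝ) : ℂ) =
      (1 / 2) * IV V := by
    rw [← IV_eq]
    refine setIntegral_congr_fun measurableSet_Ioi fun r hr => ?_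
    have hr : 0 < r := hr
    simp only [Wt.radS_apply, PO.rad, Complex.norm_real, Real.norm_of_nonneg hr.le]
  rw [h2] at h
  have hpi : (Real.pi : ℂ) ≠ 0 := by exact_mod_cast Real.pi_ne_zero
  push_cast
  field_simp
  linear_combination (2 : ℂ) * h

theorem kap3_eq : kap3 = kapC / Real.sqrt 3 := by
  rw [kap3, kapC]
  have h3 : Real.Gamma (2 / 3) ≠ 0 := (Real.Gamma_pos_of_pos (by norm_num)).ne'
  field_simp

/-- the cube sum with the error of `lattice_cube` -/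
theorem C0_err {V : ℝ → ℂ} (hV : Wt V) {T : ℝ} (hT : 0 < T) :
    ‖V1.C0 V T - (kap3 * IV V) * ((T ^ (-(1 / 3) : ℝ) : ℝ) : ℂ)‖ ≤
      3000 * (12 * Real.pi ^ 2 * (∫ x in Ioi (0 : ℝ), ‖PO.Vo (XV V) x‖) +
        ∫ x in Ioi (0 : ℝ), ‖PO.Vo (D1 V) x‖ / x) := by
  have hy : 0 < T ^ (1 / 3 : ℝ) := Real.rpow_pos_of_pos hT _
  obtain ⟨_, h⟩ := lattice_cube hV hy
  have h3 : ∀ n : ℝ, (T ^ (1 / 3 : ℝ) * n) ^ 3 = T * n ^ 3 := by
    intro n
    rw [mul_pow, ← Real.rpow_natCast (T ^ (1 / 3 : ℝ)), ← Real.rpow_mul hT.le]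
    norm_num
  simp_rw [h3] at h
  rw [int_Vo_cube hV] at h
  have e1 : ((2 * Real.pi / (Real.sqrt 3 * T ^ (1 / 3 : ℝ)) : ℝ) : ℂ) *
      (((kapC / (2 * Real.pi) : ℝ) : ℂ) * IV V) =
      (kap3 * IV V) * ((T ^ (-(1 / 3) : ℝ) : ℝ) : ℂ) := by
    rw [kap3_eq, Real.rpow_neg hT.le]
    have hpi : (Real.pi : ℂ) ≠ 0 := by exact_mod_cast Real.pi_ne_zero
    have h2 : ((T ^ (1 / 3 : ℝ) : ℝ) : ℂ) ≠ 0 := by exact_mod_cast hy.ne'
    have h3 : ((Real.sqrt 3 : ℝ) : ℂ) ≠ 0 := by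
      exact_mod_cast (by positivity : Real.sqrt 3 ≠ 0)
    push_cast
    field_simp
  rw [e1] at h
  exact h

end Vale.Agent.P006.CM
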