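import Vale.Agent.P006.CM.ClassAl
import Vale.Agent.P006.CMX.NCsmDef
import Vale.Agent.P006.DN.NCout

/-!
P006, block CM: the non-cube functional of the smooth coefficients is `o(A^(8/3))`.
-/

namespace Vale.Agent.P006.CM

open Filter Topology
open Vale.Agent.P006.KER (Nice)
open Vale.Agent.P006.CMX (al Cut)

theorem blk_zero {α : O → ℂ} {l : ℕ} (h : ∀ a, α a ≠ 0 → N a < 2 ^ l) : DN.blk α l 0 = α := by
  funext a
  rw [DN.blk]
  split_ifs with h1
  · rfl
  · by_contra hne
    exact h1 (Nat.div_eq_of_lt (h a (fun h0 => hne h0.symm)))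

theorem NCf_nonneg {A B : ℝ} (hA : 0 < A) (hB : 0 < B) (α : O → ℂ) : 0 ≤ DISP.NCf α A B := by
  rw [DISP.NCf]
  have : 0 ≤ ∑ j ∈ SPB (2 * A), ∑' κ : O, DISP.ncTerm α A B j κ :=
    Finset.sum_nonneg fun j _ => tsum_nonneg fun κ => DN.ncTerm_nonneg hA hB α j κ
  positivity

theorem ncsm : CMX.NCsm := by
  intro U a0 b0 hU
  obtain ⟨M, hM, hM0, hM1⟩ := nice_bounds hU.nice
  obtain ⟨X0, C, hX0, hC, key⟩ := DN.NCf_blocks (δ := 2 / 5) (by norm_num) (by norm_num) 1
  set G : ℝ := max 1 (M * (1 + b0)) with hG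
  have hb0 : 0 < b0 := hU.nice.pos.trans_le hU.nice.le
  have hlim : Tendsto (fun A : ℝ => C * G ^ 2 / Real.log (A ^ (5 / 2 : ℝ))) atTop (𝓝 0) := by
    apply Tendsto.div_atTop tendsto_const_nhds
    exact Real.tendsto_log_atTop.comp (tendsto_rpow_atTop (by norm_num))
  refine squeeze_zero' ?_ ?_ hlim
  · filter_upwards [eventually_gt_atTop 0] with A hA
    exact div_nonneg (NCf_nonneg hA (by positivity) _) (by positivity)
  · filter_upwards [eventually_ge_atTop (max X0 2)] with A hA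
    have hA3 : X0 ≤ A := (le_max_left _ _).trans hA
    have hA1 : 2 ≤ A := (le_max_right _ _).trans hA
    have hA0 : 0 < A := by linarith
    have hAX : A ≤ A ^ (5 / 2 : ℝ) := by
      calc A = A ^ (1 : ℝ) := (Real.rpow_one A).symm
        _ ≤ _ := Real.rpow_le_rpow_of_exponent_le (by linarith) (by norm_num)
    have h2AX : 2 * A ≤ A ^ (5 / 2 : ℝ) := by
      calc 2 * A ≤ A * A := by gcongr
        _ = A ^ (2 : ℝ) := by rw [Real.rpow_two]; ring
        _ ≤ _ := Real.rpow_le_rpow_of_exponent_le (by linarith) (by norm_num)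
    have hcls : ClassG (al U A) (A ^ (5 / 2 : ℝ)) G := by
      have h1 := classG_al hU.nice hM0 hM1 hA0 (X := A ^ (5 / 2 : ℝ)) (by
        have := hU.le
        nlinarith)
      exact ClassG.mono h1 le_rfl (le_max_right _ _)
    obtain ⟨l, hl⟩ := pow_unbounded_of_one_lt (2 * A) (one_lt_two : (1 : ℝ) < 2)
    have hblk : DN.blk (al U A) l 0 = al U A := by
      apply blk_zero
      intro a ha
      have h1 := (al_supp hU.nice hU.lt hU.le hA0 a ha).2
      have h2 : (N a : ℝ) < 2 ^ l := lt_of_le_of_lt h1 hl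
      exact_mod_cast h2
    have h := key (A ^ (5 / 2 : ℝ)) A (A ^ (3 / 2 : ℝ)) G (al U A) (hA3.trans hAX)
      (by rw [← Real.rpow_mul hA0.le]; norm_num)
      (Real.rpow_le_rpow_of_exponent_le (by linarith) (by norm_num))
      (by
        rw [← Real.rpow_one_add' hA0.le (by norm_num)]
        exact Real.rpow_le_rpow_of_exponent_le (by linarith) (by norm_num))
      (le_max_left _ _) hcls (fun a ha => al_supp hU.nice hU.lt hU.le hA0 a ha) l {0}
    rw [Finset.sum_singleton, hblk] at h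
    rw [div_le_iff₀ (by positivity)]
    refine h.trans (le_of_eq ?_)
    have e : A ^ (8 / 3 : ℝ) = A ^ (5 / 3 : ℝ) * (A ^ (3 / 2 : ℝ)) ^ (2 / 3 : ℝ) := by
      rw [← Real.rpow_mul hA0.le, ← Real.rpow_add hA0]
      norm_num
    rw [e]
    ring

end Vale.Agent.P006.CM
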