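import Mathlib
import Vale.Agent.P006.CM.Euler

/-!
P006, block CM: the third main term (V3).
-/

namespace Vale.Agent.P006.CM

open Vale.Agent.P006 Finset MeasureTheory
open Vale.Agent.P006.TI

/-- one term of Abel summation -/
theorem abel_term {t b : ℝ} (ht : 0 ≤ t) {f f' : ℝ → ℂ}
    (hf : ∀ u, HasDerivAt f (f' u) u) (hc : Continuous f') (hfb : ∀ u, b ≤ u → f u = 0) :
    ∫ u in Set.Ioc (0 : ℝ) b, (Set.Ici t).indicator f' u = - f t := by
  rw [setIntegral_indicator measurableSet_Ici]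
  have h1 : (Set.Ioc (0 : ℝ) b ∩ Set.Ici t : Set ℝ) =ᵐ[volume] (Set.Ioc t b : Set ℝ) := by
    have h2 : (Set.Ioc (0 : ℝ) b ∩ Set.Ici t : Set ℝ) =ᵐ[volume]
        (Set.Ioc (0 : ℝ) b ∩ Set.Ioi t : Set ℝ) :=
      (Filter.EventuallyEq.refl _ _).inter Ioi_ae_eq_Ici.symm
    have h3 : Set.Ioc (0 : ℝ) b ∩ Set.Ioi t = Set.Ioc t b := by
      ext u
      simp only [Set.mem_inter_iff, Set.mem_Ioc, Set.mem_Ioi]
      constructor
      · rintro ⟨⟨_, h⟩, h'⟩; exact ⟨h', h⟩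
      · rintro ⟨h, h'⟩; exact ⟨⟨by linarith, h'⟩, h⟩
    rwa [h3] at h2
  rw [setIntegral_congr_set h1]
  rcases le_or_gt t b with h | h
  · rw [← intervalIntegral.integral_of_le h,
      intervalIntegral.integral_eq_sub_of_hasDerivAt (fun u _ => hf u)
        (hc.intervalIntegrable _ _), hfb b le_rfl, zero_sub]
  · rw [Set.Ioc_eq_empty (not_lt.2 h.le), hfb t h.le]
    simp

theorem card_mul_eq (s : Finset O) {Y : ℝ} (hY : 0 < Y) (f' : ℝ → ℂ) (u : ℝ) :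
    (((s.filter (fun c => (N c : ℝ) ≤ u * Y)).card : ℝ) : ℂ) * f' u =
      ∑ c ∈ s, (Set.Ici ((N c : ℝ) / Y)).indicator f' u := by
  have h1 : (((s.filter (fun c => (N c : ℝ) ≤ u * Y)).card : ℝ) : ℂ) =
      ∑ c ∈ s, if (N c : ℝ) ≤ u * Y then (1 : ℂ) else 0 := by
    rw [sum_boole]; simp
  rw [h1, sum_mul]
  refine sum_congr rfl fun c _ => ?_
  by_cases h : (N c : ℝ) ≤ u * Y
  · rw [if_pos h, one_mul, Set.indicator_of_mem]
    rw [Set.mem_Ici, div_le_iff₀ hY]; exact h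
  · rw [if_neg h, zero_mul, Set.indicator_of_notMem]
    rw [Set.mem_Ici, div_le_iff₀ hY]; exact h

/-- Abel summation over a finite set of elements of `O` -/
theorem abel_sum (s : Finset O) {Y b : ℝ} (hY : 0 < Y) {f f' : ℝ → ℂ}
    (hf : ∀ u, HasDerivAt f (f' u) u) (hc : Continuous f') (hfb : ∀ u, b ≤ u → f u = 0) :
    ∑ c ∈ s, f ((N c : ℝ) / Y) =
      - ∫ u in Set.Ioc (0 : ℝ) b, (((s.filter (fun c => (N c : ℝ) ≤ u * Y)).card : ℝ) : ℂ) * f' u := by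
  simp_rw [card_mul_eq s hY f']
  rw [integral_finsetSum]
  · rw [← sum_neg_distrib]
    refine sum_congr rfl fun c _ => ?_
    rw [abel_term (by positivity) hf hc hfb, neg_neg]
  · intro c _
    exact (hc.integrableOn_Ioc).indicator measurableSet_Ici

/-- Sum over squarefree primary elements prime to `D` of a `C¹` weight. -/
theorem sum_SC {θ : ℝ} (h1 : 1 / 2 < θ) (h2 : θ ≤ 1) {b : ℝ} (hb : 0 < b) {D : O} (hD : Primary D)
    (hs : Squarefree D) {X Y M : ℝ} (hY : 0 < Y) (hX : b * Y ≤ X) {f f' : ℝ → ℂ}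
    (hf : ∀ u, HasDerivAt f (f' u) u) (hc : Continuous f') (hfb : ∀ u, b ≤ u → f u = 0)
    (hM : ∀ u, ‖f' u‖ ≤ M) :
    ‖∑ c ∈ SC D X, f ((N c : ℝ) / Y) -
      ((kap * ((N D : ℝ) * vr D) * Y : ℝ) : ℂ) * ∫ u in (0 : ℝ)..b, f u‖ ≤
      M * b ^ (1 + θ) * (M1 θ * (HB.D D).card) * Y ^ θ := by
  set K : ℝ := kap * ((N D : ℝ) * vr D) with hK
  have hfc : Continuous f := continuous_iff_continuousAt.2 fun u => (hf u).continuousAt
  have hcard : ∀ u ∈ Set.Ioc (0 : ℝ) b,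
      (((SC D X).filter (fun c => (N c : ℝ) ≤ u * Y)).card : ℝ) = K * (u * Y) + Eb D (u * Y) := by
    intro u hu
    have h3 : (SC D X).filter (fun c => (N c : ℝ) ≤ u * Y) = SC D (u * Y) := by
      ext c
      rw [mem_filter, mem_SC, mem_SC]
      have h4 : u * Y ≤ X := (mul_le_mul_of_nonneg_right hu.2 hY.le).trans hX
      constructor
      · rintro ⟨⟨a1, a2, a3, _⟩, a5⟩; exact ⟨a1, a2, a3, a5⟩
      · rintro ⟨a1, a2, a3, a4⟩; exact ⟨⟨a1, a2, a3, a4.trans h4⟩, a4⟩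
    rw [h3, Eb, hK]; ring
  have hmain : ∫ u in Set.Ioc (0 : ℝ) b, (((K * (u * Y) : ℝ) : ℂ)) * f' u =
      -(((K * Y : ℝ) : ℂ) * ∫ u in (0 : ℝ)..b, f u) := by
    have h3 : ∫ u in (0 : ℝ)..b, (u : ℂ) * f' u = - ∫ u in (0 : ℝ)..b, f u := by
      have h4 := intervalIntegral.integral_mul_deriv_eq_deriv_mul (a := 0) (b := b)
        (u := fun u : ℝ => (u : ℂ)) (v := f) (u' := fun _ => 1) (v' := f')
        (fun u _ => by simpa using (hasDerivAt_id u).ofReal_comp)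
        (fun u _ => hf u) (continuous_const.intervalIntegrable _ _) (hc.intervalIntegrable _ _)
      rw [h4, hfb b le_rfl]
      simp
    have h5 : ∀ u : ℝ, (((K * (u * Y) : ℝ) : ℂ)) * f' u = ((K * Y : ℝ) : ℂ) * ((u : ℂ) * f' u) := by
      intro u; push_cast; ring
    simp_rw [h5]
    rw [integral_const_mul, ← intervalIntegral.integral_of_le hb.le, h3]
    ring
  -- the step function is integrable
  have hint1 : IntegrableOn (fun u : ℝ =>
      (((((SC D X).filter (fun c => (N c : ℝ) ≤ u * Y)).card : ℝ) : ℂ)) * f' u)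
      (Set.Ioc 0 b) := by
    have h6 : (fun u : ℝ => (((((SC D X).filter (fun c => (N c : ℝ) ≤ u * Y)).card : ℝ) : ℂ)) *
        f' u) = fun u => ∑ c ∈ SC D X, (Set.Ici ((N c : ℝ) / Y)).indicator f' u :=
      funext fun u => card_mul_eq (SC D X) hY f' u
    rw [h6]
    exact integrable_finsetSum _ fun c _ => (hc.integrableOn_Ioc).indicator measurableSet_Ici
  have hint2 : IntegrableOn (fun u : ℝ => (((K * (u * Y) : ℝ) : ℂ)) * f' u) (Set.Ioc 0 b) := by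
    apply Continuous.integrableOn_Ioc
    have := hc
    fun_prop
  have hdiff : ∑ c ∈ SC D X, f ((N c : ℝ) / Y) - ((K * Y : ℝ) : ℂ) * ∫ u in (0 : ℝ)..b, f u =
      - ∫ u in Set.Ioc (0 : ℝ) b, ((Eb D (u * Y) : ℝ) : ℂ) * f' u := by
    rw [abel_sum _ hY hf hc hfb]
    have h7 : ∫ u in Set.Ioc (0 : ℝ) b, ((Eb D (u * Y) : ℝ) : ℂ) * f' u =
        (∫ u in Set.Ioc (0 : ℝ) b,
          (((((SC D X).filter (fun c => (N c : ℝ) ≤ u * Y)).card : ℝ) : ℂ)) * f' u) -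
        ∫ u in Set.Ioc (0 : ℝ) b, (((K * (u * Y) : ℝ) : ℂ)) * f' u := by
      rw [← integral_sub hint1 hint2]
      refine setIntegral_congr_fun measurableSet_Ioc fun u hu => ?_
      rw [hcard u hu]
      push_cast
      ring
    rw [h7, hmain]
    ring
  rw [hdiff, norm_neg]
  have hbound : ∀ u ∈ Set.Ioc (0 : ℝ) b, ‖((Eb D (u * Y) : ℝ) : ℂ) * f' u‖ ≤
      M1 θ * (HB.D D).card * (b * Y) ^ θ * M := by
    intro u hu
    rw [norm_mul, Complex.norm_real, Real.norm_eq_abs]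
    have h8 := abs_Eb_le h1 h2 hD hs (u * Y) (mul_pos hu.1 hY)
    have h9 : (u * Y) ^ θ ≤ (b * Y) ^ θ := by
      have : 0 ≤ u * Y := (mul_pos hu.1 hY).le
      have : u * Y ≤ b * Y := mul_le_mul_of_nonneg_right hu.2 hY.le
      gcongr
    have h10 := M1_nonneg θ
    calc |Eb D (u * Y)| * ‖f' u‖ ≤ (M1 θ * (HB.D D).card * (u * Y) ^ θ) * M :=
          mul_le_mul h8 (hM u) (norm_nonneg _) ((abs_nonneg _).trans h8)
      _ ≤ (M1 θ * (HB.D D).card * (b * Y) ^ θ) * M := by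
          have hM0 : 0 ≤ M := (norm_nonneg _).trans (hM 0)
          gcongr
  have h11 := norm_setIntegral_le_of_norm_le_const (s := Set.Ioc (0 : ℝ) b)
    (by rw [Real.volume_Ioc]; exact ENNReal.ofReal_lt_top) hbound
  refine h11.trans (le_of_eq ?_)
  rw [Measure.real, Real.volume_Ioc, sub_zero, ENNReal.toReal_ofReal hb.le,
    Real.mul_rpow hb.le hY.le, Real.rpow_add hb, Real.rpow_one]
  ring

/-- The weight `V(u) u^{-1/3}` and its derivative. -/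
theorem hasDerivAt_weight {a : ℝ} (ha : 0 < a) {V V' : ℝ → ℂ} (hV : ∀ u, HasDerivAt V (V' u) u)
    (hVa : ∀ u, u ≤ a → V u = 0) (u : ℝ) :
    HasDerivAt (fun u : ℝ => V u * ((u ^ (-(1 / 3) : ℝ) : ℝ) : ℂ))
      (V' u * ((u ^ (-(1 / 3) : ℝ) : ℝ) : ℂ) +
        V u * ((-(1 / 3) * u ^ (-(4 / 3) : ℝ) : ℝ) : ℂ)) u := by
  rcases lt_or_ge u a with hu | hu
  · have h1 : (fun u : ℝ => V u * ((u ^ (-(1 / 3) : ℝ) : ℝ) : ℂ)) =ᶠ[nhds u] fun _ => 0 := by
      filter_upwards [Iio_mem_nhds hu] with x hx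
      rw [hVa x (le_of_lt hx), zero_mul]
    have h2 : V =ᶠ[nhds u] fun _ => 0 := by
      filter_upwards [Iio_mem_nhds hu] with x hx
      exact hVa x (le_of_lt hx)
    have h3 : V' u = 0 := by
      have := (hasDerivAt_const u (0 : ℂ)).congr_of_eventuallyEq h2
      exact (hV u).unique this
    rw [h3, hVa u hu.le, zero_mul, zero_mul, add_zero]
    exact (hasDerivAt_const u (0 : ℂ)).congr_of_eventuallyEq h1
  · have hu0 : 0 < u := ha.trans_le hu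
    have h1 : HasDerivAt (fun u : ℝ => ((u ^ (-(1 / 3) : ℝ) : ℝ) : ℂ))
        ((-(1 / 3) * u ^ (-(4 / 3) : ℝ) : ℝ) : ℂ) u := by
      have h2 := Real.hasDerivAt_rpow_const (x := u) (p := -(1 / 3)) (Or.inl hu0.ne')
      have h3 : (-(1 / 3) : ℝ) - 1 = -(4 / 3) := by norm_num
      rw [h3] at h2
      exact h2.ofReal_comp
    exact (hV u).mul h1

theorem deriv_zero_of_le {a : ℝ} {V V' : ℝ → ℂ} (hV : ∀ u, HasDerivAt V (V' u) u)
    (hc : Continuous V') (hVa : ∀ u, u ≤ a → V u = 0) (u : ℝ) (hu : u ≤ a) : V' u = 0 := by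
  have h1 : ∀ x, x < a → V' x = 0 := by
    intro x hx
    have h2 : V =ᶠ[nhds x] fun _ => 0 := by
      filter_upwards [Iio_mem_nhds hx] with y hy
      exact hVa y (le_of_lt hy)
    exact (hV x).unique ((hasDerivAt_const x (0 : ℂ)).congr_of_eventuallyEq h2)
  rcases lt_or_eq_of_le hu with h | h
  · exact h1 u h
  · subst h
    have h3 : Set.EqOn V' (fun _ => 0) (closure (Set.Iio u)) :=
      Set.EqOn.closure (fun x hx => h1 x hx) hc continuous_const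
    exact h3 (by rw [closure_Iio]; exact Set.mem_Iic.2 le_rfl)

theorem continuous_weight' {a : ℝ} (ha : 0 < a) {V V' : ℝ → ℂ} (hV : ∀ u, HasDerivAt V (V' u) u)
    (hc : Continuous V') (hVa : ∀ u, u ≤ a → V u = 0) :
    Continuous (fun u : ℝ => V' u * ((u ^ (-(1 / 3) : ℝ) : ℝ) : ℂ) +
        V u * ((-(1 / 3) * u ^ (-(4 / 3) : ℝ) : ℝ) : ℂ)) := by
  have hVc : Continuous V := continuous_iff_continuousAt.2 fun u => (hV u).continuousAt
  rw [continuous_iff_continuousAt]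
  intro u
  rcases lt_or_ge u a with hu | hu
  · have h1 : (fun u : ℝ => V' u * ((u ^ (-(1 / 3) : ℝ) : ℝ) : ℂ) +
        V u * ((-(1 / 3) * u ^ (-(4 / 3) : ℝ) : ℝ) : ℂ)) =ᶠ[nhds u] fun _ => 0 := by
      filter_upwards [Iio_mem_nhds hu] with x hx
      rw [hVa x (le_of_lt hx), deriv_zero_of_le hV hc hVa x (le_of_lt hx)]
      simp
    exact continuousAt_const.congr h1.symm
  · have hu0 : u ≠ 0 := (ha.trans_le hu).ne'
    have h1 : ContinuousAt (fun u : ℝ => u ^ (-(1 / 3) : ℝ)) u :=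
      Real.continuousAt_rpow_const _ _ (Or.inl hu0)
    have h2 : ContinuousAt (fun u : ℝ => u ^ (-(4 / 3) : ℝ)) u :=
      Real.continuousAt_rpow_const _ _ (Or.inl hu0)
    have h3 : ContinuousAt (fun u : ℝ => ((u ^ (-(1 / 3) : ℝ) : ℝ) : ℂ)) u :=
      Complex.continuous_ofReal.continuousAt.comp h1
    have h4 : ContinuousAt (fun u : ℝ => ((-(1 / 3) * u ^ (-(4 / 3) : ℝ) : ℝ) : ℂ)) u :=
      Complex.continuous_ofReal.continuousAt.comp (continuousAt_const.mul h2)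
    exact (hc.continuousAt.mul h3).add (hVc.continuousAt.mul h4)

theorem norm_weight'_le {a : ℝ} (ha : 0 < a) {V V' : ℝ → ℂ} (hV : ∀ u, HasDerivAt V (V' u) u)
    (hc : Continuous V') (hVa : ∀ u, u ≤ a → V u = 0) {M : ℝ} (hM : ∀ u, ‖V u‖ ≤ M)
    (hM' : ∀ u, ‖V' u‖ ≤ M) (u : ℝ) :
    ‖V' u * ((u ^ (-(1 / 3) : ℝ) : ℝ) : ℂ) + V u * ((-(1 / 3) * u ^ (-(4 / 3) : ℝ) : ℝ) : ℂ)‖ ≤
      M * (a ^ (-(1 / 3) : ℝ) + a ^ (-(4 / 3) : ℝ)) := by
  have hM0 : 0 ≤ M := (norm_nonneg _).trans (hM 0)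
  rcases le_or_gt u a with hu | hu
  · rw [hVa u hu, deriv_zero_of_le hV hc hVa u hu]
    simp only [zero_mul, add_zero, norm_zero]
    positivity
  · have hu0 : 0 < u := ha.trans hu
    have h1 : u ^ (-(1 / 3) : ℝ) ≤ a ^ (-(1 / 3) : ℝ) :=
      Real.rpow_le_rpow_of_nonpos ha hu.le (by norm_num)
    have h2 : u ^ (-(4 / 3) : ℝ) ≤ a ^ (-(4 / 3) : ℝ) :=
      Real.rpow_le_rpow_of_nonpos ha hu.le (by norm_num)
    have h3 : 0 < u ^ (-(1 / 3) : ℝ) := by positivity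
    have h4 : 0 < u ^ (-(4 / 3) : ℝ) := by positivity
    refine (norm_add_le _ _).trans ?_
    rw [norm_mul, norm_mul, Complex.norm_real, Complex.norm_real, Real.norm_of_nonneg h3.le,
      norm_mul, Real.norm_of_nonneg h4.le]
    have h5 : ‖(-(1 / 3) : ℝ)‖ ≤ 1 := by rw [Real.norm_eq_abs]; norm_num
    have h6 : ‖V' u‖ * u ^ (-(1 / 3) : ℝ) ≤ M * a ^ (-(1 / 3) : ℝ) :=
      mul_le_mul (hM' u) h1 h3.le hM0
    have h7 : ‖V u‖ * (‖(-(1 / 3) : ℝ)‖ * u ^ (-(4 / 3) : ℝ)) ≤ M * (1 * a ^ (-(4 / 3) : ℝ)) := by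
      have := hM u
      gcongr
    linarith

/-- `∫_0^b V(u) u^{-1/3} du` -/
noncomputable def IVb (V : ℝ → ℂ) (b : ℝ) : ℂ := ∫ u in (0 : ℝ)..b, V u * ((u ^ (-(1 / 3) : ℝ) : ℝ) : ℂ)

/-- the constant of the error term of (V3) -/
noncomputable def C3 (a b θ : ℝ) : ℝ :=
  (a ^ (-(1 / 3) : ℝ) + a ^ (-(4 / 3) : ℝ)) * b ^ (1 + θ) * M1 θ

theorem V3_inner {θ : ℝ} (h1 : 1 / 2 < θ) (h2 : θ ≤ 1) {a b : ℝ} (ha : 0 < a) (hb : 0 < b)
    {D : O} (hD : Primary D) (hs : Squarefree D) {V V' : ℝ → ℂ}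
    (hV : ∀ u, HasDerivAt V (V' u) u) (hc : Continuous V') (hVa : ∀ u, u ≤ a → V u = 0)
    (hVb : ∀ u, b ≤ u → V u = 0) {M : ℝ} (hM : ∀ u, ‖V u‖ ≤ M) (hM' : ∀ u, ‖V' u‖ ≤ M)
    {X Y : ℝ} (hY : 0 < Y) (hX : b * Y ≤ X) :
    ‖∑ c ∈ SC D X, V ((N c : ℝ) / Y) * ((((N c : ℝ)) ^ (-(1 / 3) : ℝ) : ℝ) : ℂ) -
      ((kap * ((N D : ℝ) * vr D) * Y ^ (2 / 3 : ℝ) : ℝ) : ℂ) * IVb V b‖ ≤
      M * C3 a b θ * (HB.D D).card * Y ^ (θ - 1 / 3) := by
  have h := sum_SC h1 h2 hb hD hs hY hX (hasDerivAt_weight ha hV hVa)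
    (continuous_weight' ha hV hc hVa) (fun u hu => by rw [hVb u hu, zero_mul])
    (norm_weight'_le ha hV hc hVa hM hM')
  have hY3 : 0 < Y ^ (-(1 / 3) : ℝ) := by positivity
  have e1 : ∑ c ∈ SC D X, V ((N c : ℝ) / Y) * ((((N c : ℝ)) ^ (-(1 / 3) : ℝ) : ℝ) : ℂ) =
      ((Y ^ (-(1 / 3) : ℝ) : ℝ) : ℂ) * ∑ c ∈ SC D X,
        V ((N c : ℝ) / Y) * (((((N c : ℝ)) / Y) ^ (-(1 / 3) : ℝ) : ℝ) : ℂ) := by
    rw [mul_sum]
    refine sum_congr rfl fun c _ => ?_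
    rw [Real.div_rpow (by positivity) hY.le]
    push_cast
    have hY3' : ((Y ^ (-(1 / 3) : ℝ) : ℝ) : ℂ) ≠ 0 := by exact_mod_cast hY3.ne'
    field_simp
  have e2 : ((kap * ((N D : ℝ) * vr D) * Y ^ (2 / 3 : ℝ) : ℝ) : ℂ) * IVb V b =
      ((Y ^ (-(1 / 3) : ℝ) : ℝ) : ℂ) * (((kap * ((N D : ℝ) * vr D) * Y : ℝ) : ℂ) * IVb V b) := by
    have : Y ^ (2 / 3 : ℝ) = Y ^ (-(1 / 3) : ℝ) * Y := by
      nth_rewrite 3 [← Real.rpow_one Y]
      rw [← Real.rpow_add hY]; norm_num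
    rw [this]
    push_cast
    ring
  rw [e1, e2, ← mul_sub, norm_mul, Complex.norm_real, Real.norm_of_nonneg hY3.le]
  calc Y ^ (-(1 / 3) : ℝ) * ‖_‖ ≤ Y ^ (-(1 / 3) : ℝ) *
        (M * (a ^ (-(1 / 3) : ℝ) + a ^ (-(4 / 3) : ℝ)) * b ^ (1 + θ) *
          (M1 θ * (HB.D D).card) * Y ^ θ) := mul_le_mul_of_nonneg_left h hY3.le
    _ = M * C3 a b θ * (HB.D D).card * (Y ^ (-(1 / 3) : ℝ) * Y ^ θ) := by
      rw [C3]; ring
    _ = _ := by
      rw [← Real.rpow_add hY]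
      congr 2
      ring

open Classical in
/-- **(V3)**, as a sum over pairs `b = b₁ b₃³`. -/
theorem V3_pairs {θ : ℝ} (h1 : 2 / 3 < θ) (h2 : θ ≤ 1) {a b : ℝ} (ha : 0 < a) (hb : 0 < b)
    {D : O} (hD : Primary D) (hs : Squarefree D) {V V' : ℝ → ℂ}
    (hV : ∀ u, HasDerivAt V (V' u) u) (hc : Continuous V') (hVa : ∀ u, u ≤ a → V u = 0)
    (hVb : ∀ u, b ≤ u → V u = 0) {M : ℝ} (hM : ∀ u, ‖V u‖ ≤ M) (hM' : ∀ u, ‖V' u‖ ≤ M)
    {X B : ℝ} (hB : 0 < B) (hX : b * B ≤ X) :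
    ‖∑ b3 ∈ (PB X).filter (fun b3 => IsCoprime b3 D), ∑ b1 ∈ SC D X,
        V ((N b1 : ℝ) * (N b3 : ℝ) ^ 3 / B) * ((((N b1 : ℝ)) ^ (-(1 / 3) : ℝ) : ℝ) : ℂ) -
      ((C0 * dn D * B ^ (2 / 3 : ℝ) : ℝ) : ℂ) * IVb V b‖ ≤
      M * C3 a b θ * ZS (3 * θ - 1) * (HB.D D).card * B ^ (θ - 1 / 3) := by
  have hM0 : 0 ≤ M := (norm_nonneg _).trans (hM 0)
  set K : ℝ := kap * ((N D : ℝ) * vr D) with hK
  set inner : O → ℂ := fun b3 => if Primary b3 ∧ IsCoprime b3 D then ∑ b1 ∈ SC D X,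
    V ((N b1 : ℝ) * (N b3 : ℝ) ^ 3 / B) * ((((N b1 : ℝ)) ^ (-(1 / 3) : ℝ) : ℝ) : ℂ) else 0
    with hinner
  set mainf : O → ℂ := fun b3 =>
    ((K * B ^ (2 / 3 : ℝ) * zt (fun b => Primary b ∧ IsCoprime b D) b3 : ℝ) : ℂ) * IVb V b
    with hmainf
  have hterm : ∀ b3 : O, ‖inner b3 - mainf b3‖ ≤
      M * C3 a b θ * (HB.D D).card * B ^ (θ - 1 / 3) * (N b3 : ℝ) ^ (-(3 * θ - 1)) := by
    intro b3
    have hC3 : 0 ≤ C3 a b θ := by
      have := M1_nonneg θ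
      unfold C3; positivity
    by_cases h : Primary b3 ∧ IsCoprime b3 D
    · have hN : (1 : ℝ) ≤ N b3 := h.1.one_le_N'
      have hN0 : (0 : ℝ) < N b3 := by linarith
      have hY : 0 < B / (N b3 : ℝ) ^ 3 := by positivity
      have hYX : b * (B / (N b3 : ℝ) ^ 3) ≤ X := by
        refine le_trans ?_ hX
        apply mul_le_mul_of_nonneg_left _ hb.le
        apply div_le_self hB.le
        exact one_le_pow₀ hN
      have h3 := V3_inner (by linarith) h2 ha hb hD hs hV hc hVa hVb hM hM' hY hYX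
      have e1 : inner b3 = ∑ c ∈ SC D X, V ((N c : ℝ) / (B / (N b3 : ℝ) ^ 3)) *
          ((((N c : ℝ)) ^ (-(1 / 3) : ℝ) : ℝ) : ℂ) := by
        simp only [hinner, if_pos h]
        refine sum_congr rfl fun c _ => ?_
        congr 2
        field_simp
      have e2 : mainf b3 = ((K * (B / (N b3 : ℝ) ^ 3) ^ (2 / 3 : ℝ) : ℝ) : ℂ) * IVb V b := by
        simp only [hmainf]
        have h33 : ((N b3 : ℝ) ^ 3) ^ (2 / 3 : ℝ) = (N b3 : ℝ) ^ 2 := by
          rw [← Real.rpow_natCast (N b3 : ℝ) 3, ← Real.rpow_mul hN0.le,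
            ← Real.rpow_natCast (N b3 : ℝ) 2]
          congr 1
          push_cast
          norm_num
        rw [zt_pos h, Real.div_rpow hB.le (by positivity), h33]
        push_cast
        ring
      rw [e1, e2]
      refine h3.trans (le_of_eq ?_)
      rw [Real.div_rpow hB.le (by positivity), ← Real.rpow_natCast (N b3 : ℝ) 3,
        ← Real.rpow_mul hN0.le, Real.rpow_neg hN0.le]
      have : ((3 : ℕ) : ℝ) * (θ - 1 / 3) = 3 * θ - 1 := by push_cast; ring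
      rw [this]
      ring
    · have e1 : inner b3 = 0 := by simp only [hinner, if_neg h]
      have e2 : mainf b3 = 0 := by simp only [hmainf]; rw [zt_neg h]; simp
      rw [e1, e2, sub_zero, norm_zero]
      positivity
  have hsumerr : Summable fun b3 : O =>
      M * C3 a b θ * (HB.D D).card * B ^ (θ - 1 / 3) * (N b3 : ℝ) ^ (-(3 * θ - 1)) :=
    (HB.summable_N_rpow (s := 3 * θ - 1) (by linarith)).mul_left _
  have hfin : ∀ b3 ∉ PB X, inner b3 = 0 := by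
    intro b3 hb3
    simp only [hinner]
    split_ifs with h
    · have hN : (1 : ℝ) ≤ N b3 := h.1.one_le_N'
      have hbig : X < N b3 := by
        by_contra hcon
        push Not at hcon
        exact hb3 (mem_PB.2 ⟨h.1, hcon⟩)
      refine sum_eq_zero fun c hc' => ?_
      have hcN : (1 : ℝ) ≤ N c := ((mem_SC.1 hc').1).one_le_N'
      rw [hVb, zero_mul]
      rw [le_div_iff₀ hB]
      have h5 : (N b3 : ℝ) ≤ (N b3 : ℝ) ^ 3 := le_self_pow₀ hN (by norm_num)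
      calc b * B ≤ N b3 := by linarith
        _ ≤ 1 * (N b3 : ℝ) ^ 3 := by linarith
        _ ≤ (N c : ℝ) * (N b3 : ℝ) ^ 3 := by gcongr
    · rfl
  have hsI : Summable inner := summable_of_hasFiniteSupport ((PB X).finite_toSet.subset (by
    intro b3 hb3
    by_contra hcon
    exact hb3 (hfin b3 hcon)))
  have hsM : Summable mainf := by
    have h6 := (summable_zt (fun b => Primary b ∧ IsCoprime b D)).mul_left
      (K * B ^ (2 / 3 : ℝ))
    exact (Complex.summable_ofReal.2 h6).mul_right _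
  have hT : ∑ b3 ∈ (PB X).filter (fun b3 => IsCoprime b3 D), ∑ b1 ∈ SC D X,
        V ((N b1 : ℝ) * (N b3 : ℝ) ^ 3 / B) * ((((N b1 : ℝ)) ^ (-(1 / 3) : ℝ) : ℝ) : ℂ) =
      ∑' b3, inner b3 := by
    rw [tsum_eq_sum hfin, sum_filter]
    refine sum_congr rfl fun b3 hb3 => ?_
    have hp := (mem_PB.1 hb3).1
    by_cases h : IsCoprime b3 D
    · simp only [hinner, if_pos h, if_pos (And.intro hp h)]
    · simp only [hinner, if_neg h, if_neg (fun h' : Primary b3 ∧ IsCoprime b3 D => h h'.2)]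
  have hMs : ∑' b3, mainf b3 = ((C0 * dn D * B ^ (2 / 3 : ℝ) : ℝ) : ℂ) * IVb V b := by
    simp only [hmainf]
    rw [tsum_mul_right, ← Complex.ofReal_tsum, tsum_mul_left, ← Zc]
    have h7 := const_identity hD hs
    rw [← hK] at h7
    rw [show K * B ^ (2 / 3 : ℝ) * Zc D = (K * Zc D) * B ^ (2 / 3 : ℝ) by ring, h7]
  rw [hT, ← hMs, ← hsI.tsum_sub hsM]
  have h8 := tsum_of_norm_bounded hsumerr.hasSum hterm
  refine h8.trans (le_of_eq ?_)
  rw [tsum_mul_left, ZS]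
  ring

end Vale.Agent.P006.CM
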