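import Vale.Agent.P006.CM.V3
import Vale.Agent.P006.DISP.Stmt

/-!
P006, block CM: the exact form of (V3) consumed by the dispersion step (`DISP.V3Hyp`).
-/

namespace Vale.Agent.P006.CM

open Vale.Agent.P006 Finset MeasureTheory
open Vale.Agent.P006.TI

/-- minimum of the two error bounds, `Y = B / n³` -/
noncomputable def Em (B : ℝ) (n : ℕ) : ℝ :=
  min ((B / (n : ℝ) ^ 3) ^ (1 / 4 : ℝ)) ((B / (n : ℝ) ^ 3) ^ (2 / 3 : ℝ))

theorem Em_nonneg {B : ℝ} (hB : 0 ≤ B) (n : ℕ) : 0 ≤ Em B n := by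
  unfold Em; positivity

theorem Em_anti {B : ℝ} (hB : 0 ≤ B) (k : ℕ) (hk : 1 ≤ k) : Em B (k + 1) ≤ Em B k := by
  have h0 : (0 : ℝ) < k := by exact_mod_cast hk
  have h1 : B / ((k + 1 : ℕ) : ℝ) ^ 3 ≤ B / (k : ℝ) ^ 3 := by
    apply div_le_div_of_nonneg_left hB (by positivity)
    gcongr
    push_cast; linarith
  have h2 : 0 ≤ B / ((k + 1 : ℕ) : ℝ) ^ 3 := by positivity
  unfold Em
  gcongr

theorem rpow_cube_div {B n : ℝ} (hB : 0 ≤ B) (hn : 0 < n) (s : ℝ) :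
    (B / n ^ 3) ^ s = B ^ s * n ^ (-(3 * s)) := by
  rw [Real.div_rpow hB (by positivity), ← Real.rpow_natCast n 3, ← Real.rpow_mul hn.le,
    Real.rpow_neg hn.le, div_eq_mul_inv]
  ring_nf

theorem sum_Em_le {B : ℝ} (hB : 1 ≤ B) (M : ℕ) :
    ∑ n ∈ Icc 1 M, Em B n ≤ 6 * B ^ (1 / 3 : ℝ) := by
  have hB0 : 0 < B := by linarith
  set Z : ℝ := B ^ (1 / 3 : ℝ) with hZ
  have hZ0 : 0 < Z := by positivity
  set k : ℕ := ⌊Z⌋₊ with hk
  have hsub : Icc 1 M ⊆ Icc 1 k ∪ Ioo k (M + 1) := by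
    intro n hn
    rw [mem_Icc] at hn
    rw [mem_union, mem_Icc, mem_Ioo]
    omega
  have hdisj : Disjoint (Icc 1 k) (Ioo k (M + 1)) := by
    rw [Finset.disjoint_left]
    intro n h1 h2
    rw [mem_Icc] at h1
    rw [mem_Ioo] at h2
    omega
  have h1 : ∑ n ∈ Icc 1 k, Em B n ≤ 4 * Z := by
    calc ∑ n ∈ Icc 1 k, Em B n ≤ ∑ n ∈ Icc 1 k, B ^ (1 / 4 : ℝ) * (n : ℝ) ^ (-(3 / 4) : ℝ) := by
          refine sum_le_sum fun n hn => ?_
          have hn0 : (0 : ℝ) < n := by exact_mod_cast (mem_Icc.1 hn).1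
          refine (min_le_left _ _).trans (le_of_eq ?_)
          rw [rpow_cube_div hB0.le hn0]
          norm_num
      _ = B ^ (1 / 4 : ℝ) * ∑ n ∈ Icc 1 k, (n : ℝ) ^ (-(3 / 4) : ℝ) := by rw [mul_sum]
      _ ≤ B ^ (1 / 4 : ℝ) * ((k : ℝ) ^ (1 - 3 / 4 : ℝ) / (1 - 3 / 4)) := by
          gcongr
          exact sum_Icc_rpow_neg_le (by norm_num) (by norm_num) k
      _ ≤ B ^ (1 / 4 : ℝ) * (Z ^ (1 - 3 / 4 : ℝ) / (1 - 3 / 4)) := by
          have hkZ : (k : ℝ) ≤ Z := Nat.floor_le hZ0.le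
          have h14 : (k : ℝ) ^ (1 - 3 / 4 : ℝ) ≤ Z ^ (1 - 3 / 4 : ℝ) :=
            Real.rpow_le_rpow (by positivity) hkZ (by norm_num)
          have h15 : 0 ≤ B ^ (1 / 4 : ℝ) := by positivity
          apply mul_le_mul_of_nonneg_left _ h15
          exact div_le_div_of_nonneg_right h14 (by norm_num)
      _ = 4 * Z := by
          have : B ^ (1 / 4 : ℝ) * Z ^ (1 - 3 / 4 : ℝ) = Z := by
            rw [hZ, ← Real.rpow_mul hB0.le, ← Real.rpow_add hB0]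
            norm_num
          rw [show B ^ (1 / 4 : ℝ) * (Z ^ (1 - 3 / 4 : ℝ) / (1 - 3 / 4)) =
            4 * (B ^ (1 / 4 : ℝ) * Z ^ (1 - 3 / 4 : ℝ)) by ring, this]
  have h2 : ∑ n ∈ Ioo k (M + 1), Em B n ≤ 2 * Z := by
    calc ∑ n ∈ Ioo k (M + 1), Em B n ≤
          ∑ n ∈ Ioo k (M + 1), B ^ (2 / 3 : ℝ) * ((n : ℝ) ^ 2)⁻¹ := by
          refine sum_le_sum fun n hn => ?_
          have hn0 : (0 : ℝ) < n := by
            have := (mem_Ioo.1 hn).1
            exact_mod_cast (by omega : 0 < n)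
          refine (min_le_right _ _).trans (le_of_eq ?_)
          rw [rpow_cube_div hB0.le hn0, show (-(3 * (2 / 3)) : ℝ) = -(2 : ℕ) by norm_num,
            Real.rpow_neg hn0.le, Real.rpow_natCast]
      _ = B ^ (2 / 3 : ℝ) * ∑ n ∈ Ioo k (M + 1), ((n : ℝ) ^ 2)⁻¹ := by rw [mul_sum]
      _ ≤ B ^ (2 / 3 : ℝ) * (2 / ((k : ℝ) + 1)) := by
          gcongr
          exact sum_Ioo_inv_sq_le k (M + 1)
      _ ≤ B ^ (2 / 3 : ℝ) * (2 / Z) := by
          gcongr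
          exact (Nat.lt_floor_add_one Z).le
      _ = 2 * Z := by
          have : B ^ (2 / 3 : ℝ) = Z * Z := by
            rw [hZ, ← Real.rpow_add hB0]; norm_num
          rw [this]; field_simp
  calc ∑ n ∈ Icc 1 M, Em B n ≤ ∑ n ∈ Icc 1 k ∪ Ioo k (M + 1), Em B n :=
        sum_le_sum_of_subset_of_nonneg hsub fun n _ _ => Em_nonneg hB0.le n
    _ = ∑ n ∈ Icc 1 k, Em B n + ∑ n ∈ Ioo k (M + 1), Em B n := sum_union hdisj
    _ ≤ 6 * Z := by linarith

theorem sum_PB_Em_le {B : ℝ} (hB : 1 ≤ B) (X : ℝ) :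
    ∑ c ∈ PB X, Em B (N c) ≤ 24 * B ^ (1 / 3 : ℝ) := by
  refine (sum_PB_le (f := Em B) (fun k hk => Em_anti (by linarith) k hk)
    (fun k _ => Em_nonneg (by linarith) k) X).trans ?_
  have := sum_Em_le hB ⌊X⌋₊
  linarith

open Classical in
/-- the bound for the tail, on all of `O` -/
noncomputable def Ef (B : ℝ) (c : O) : ℝ := if Primary c then Em B (N c) else 0

theorem Ef_nonneg {B : ℝ} (hB : 0 ≤ B) (c : O) : 0 ≤ Ef B c := by
  unfold Ef; split_ifs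
  · exact Em_nonneg hB _
  · exact le_rfl

theorem sum_Ef_le {B : ℝ} (hB : 1 ≤ B) (s : Finset O) : ∑ c ∈ s, Ef B c ≤ 24 * B ^ (1 / 3 : ℝ) := by
  classical
  obtain ⟨X, hX⟩ : ∃ X : ℝ, ∀ c ∈ s, (N c : ℝ) ≤ X := by
    refine ⟨∑ c ∈ s, (N c : ℝ), fun c hc => ?_⟩
    exact single_le_sum (f := fun c => (N c : ℝ)) (fun c _ => by positivity) hc
  calc ∑ c ∈ s, Ef B c = ∑ c ∈ s.filter Primary, Em B (N c) := by
        rw [sum_filter]; rfl
    _ ≤ ∑ c ∈ PB X, Em B (N c) := by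
        apply sum_le_sum_of_subset_of_nonneg
        · intro c hc
          rw [mem_filter] at hc
          exact mem_PB.2 ⟨hc.2, hX c hc.1⟩
        · intro c _ _
          exact Em_nonneg (by linarith) _
    _ ≤ _ := sum_PB_Em_le hB X

theorem summable_Ef {B : ℝ} (hB : 1 ≤ B) : Summable (Ef B) :=
  summable_of_sum_le (Ef_nonneg (by linarith)) (sum_Ef_le hB)

theorem tsum_Ef_le {B : ℝ} (hB : 1 ≤ B) : ∑' c, Ef B c ≤ 24 * B ^ (1 / 3 : ℝ) :=
  (summable_Ef hB).tsum_le_of_sum_le (sum_Ef_le hB)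

open Classical in
/-- **(V3)**, as a sum over pairs `b = b₁ b₃³`, with the exact error `B^{1/3}`. -/
theorem V3_pairs' {a b : ℝ} (ha : 0 < a) (hb : 0 < b)
    {D : O} (hD : Primary D) (hs : Squarefree D) {V V' : ℝ → ℂ}
    (hV : ∀ u, HasDerivAt V (V' u) u) (hc : Continuous V') (hVa : ∀ u, u ≤ a → V u = 0)
    (hVb : ∀ u, b ≤ u → V u = 0) {M : ℝ} (hM : ∀ u, ‖V u‖ ≤ M) (hM' : ∀ u, ‖V' u‖ ≤ M)
    {X B : ℝ} (hB : 1 ≤ B) (hX : b * B ≤ X) :
    ‖∑ b3 ∈ (PB X).filter (fun b3 => IsCoprime b3 D), ∑ b1 ∈ SC D X,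
        V ((N b1 : ℝ) * (N b3 : ℝ) ^ 3 / B) * ((((N b1 : ℝ)) ^ (-(1 / 3) : ℝ) : ℝ) : ℂ) -
      ((C0 * dn D * B ^ (2 / 3 : ℝ) : ℝ) : ℂ) * IVb V b‖ ≤
      M * (C3 a b (7 / 12) + C3 a b 1) * (HB.D D).card * (24 * B ^ (1 / 3 : ℝ)) := by
  have hM0 : 0 ≤ M := (norm_nonneg _).trans (hM 0)
  have hB0 : 0 < B := by linarith
  set K : ℝ := kap * ((N D : ℝ) * vr D) with hK
  set inner : O → ℂ := fun b3 => if Primary b3 ∧ IsCoprime b3 D then ∑ b1 ∈ SC D X,
    V ((N b1 : ℝ) * (N b3 : ℝ) ^ 3 / B) * ((((N b1 : ℝ)) ^ (-(1 / 3) : ℝ) : ℝ) : ℂ) else 0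
    with hinner
  set mainf : O → ℂ := fun b3 =>
    ((K * B ^ (2 / 3 : ℝ) * zt (fun b => Primary b ∧ IsCoprime b D) b3 : ℝ) : ℂ) * IVb V b
    with hmainf
  have hC3 : ∀ θ, 0 ≤ C3 a b θ := by
    intro θ
    have := M1_nonneg θ
    unfold C3; positivity
  have hC31 := hC3 (7 / 12)
  have hC32 := hC3 1
  have hterm : ∀ b3 : O, ‖inner b3 - mainf b3‖ ≤
      M * (C3 a b (7 / 12) + C3 a b 1) * (HB.D D).card * Ef B b3 := by
    intro b3
    by_cases h : Primary b3 ∧ IsCoprime b3 D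
    · have hN : (1 : ℝ) ≤ N b3 := h.1.one_le_N'
      have hN0 : (0 : ℝ) < N b3 := by linarith
      have hY : 0 < B / (N b3 : ℝ) ^ 3 := by positivity
      have hYX : b * (B / (N b3 : ℝ) ^ 3) ≤ X := by
        refine le_trans ?_ hX
        apply mul_le_mul_of_nonneg_left _ hb.le
        apply div_le_self hB0.le
        exact one_le_pow₀ hN
      have e1 : inner b3 = ∑ c ∈ SC D X, V ((N c : ℝ) / (B / (N b3 : ℝ) ^ 3)) *
          ((((N c : ℝ)) ^ (-(1 / 3) : ℝ) : ℝ) : ℂ) := by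
        simp only [hinner, if_pos h]
        refine sum_congr rfl fun c _ => ?_
        congr 2
        field_simp
      have e2 : mainf b3 = ((K * (B / (N b3 : ℝ) ^ 3) ^ (2 / 3 : ℝ) : ℝ) : ℂ) * IVb V b := by
        simp only [hmainf]
        have h33 : ((N b3 : ℝ) ^ 3) ^ (2 / 3 : ℝ) = (N b3 : ℝ) ^ 2 := by
          rw [← Real.rpow_natCast (N b3 : ℝ) 3, ← Real.rpow_mul hN0.le,
            ← Real.rpow_natCast (N b3 : ℝ) 2]
          congr 1
          push_cast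
          norm_num
        rw [zt_pos h, Real.div_rpow hB0.le (by positivity), h33]
        push_cast
        ring
      rw [e1, e2]
      have h3 := V3_inner (θ := 7 / 12) (by norm_num) (by norm_num) ha hb hD hs hV hc hVa hVb hM
        hM' hY hYX
      have h4 := V3_inner (θ := 1) (by norm_num) (by norm_num) ha hb hD hs hV hc hVa hVb hM
        hM' hY hYX
      rw [show (7 / 12 - 1 / 3 : ℝ) = 1 / 4 by norm_num] at h3
      rw [show (1 - 1 / 3 : ℝ) = 2 / 3 by norm_num] at h4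
      rw [Ef, if_pos h.1, Em]
      rcases min_cases ((B / (N b3 : ℝ) ^ 3) ^ (1 / 4 : ℝ)) ((B / (N b3 : ℝ) ^ 3) ^ (2 / 3 : ℝ))
        with ⟨h5, -⟩ | ⟨h5, -⟩
      · rw [h5]
        refine h3.trans ?_
        gcongr
        linarith
      · rw [h5]
        refine h4.trans ?_
        gcongr
        linarith
    · have e1 : inner b3 = 0 := by simp only [hinner, if_neg h]
      have e2 : mainf b3 = 0 := by simp only [hmainf]; rw [zt_neg h]; simp
      rw [e1, e2, sub_zero, norm_zero]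
      have := Ef_nonneg hB0.le b3
      positivity
  have hsumerr : Summable fun b3 : O =>
      M * (C3 a b (7 / 12) + C3 a b 1) * (HB.D D).card * Ef B b3 :=
    (summable_Ef hB).mul_left _
  have hfin : ∀ b3 ∉ PB X, inner b3 = 0 := by
    intro b3 hb3
    simp only [hinner]
    split_ifs with h
    · have hN : (1 : ℝ) ≤ N b3 := h.1.one_le_N'
      have hbig : X < N b3 := by
        by_contra hcon
        push Not at hcon
        exact hb3 (mem_PB.2 ⟨h.1, hcon⟩)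
      refine sum_eq_zero fun c hc' => ?_
      have hcN : (1 : ℝ) ≤ N c := ((mem_SC.1 hc').1).one_le_N'
      rw [hVb, zero_mul]
      rw [le_div_iff₀ hB0]
      have h5 : (N b3 : ℝ) ≤ (N b3 : ℝ) ^ 3 := le_self_pow₀ hN (by norm_num)
      calc b * B ≤ N b3 := by linarith
        _ ≤ 1 * (N b3 : ℝ) ^ 3 := by linarith
        _ ≤ (N c : ℝ) * (N b3 : ℝ) ^ 3 := by gcongr
    · rfl
  have hsI : Summable inner := summable_of_hasFiniteSupport ((PB X).finite_toSet.subset (by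
    intro b3 hb3
    by_contra hcon
    exact hb3 (hfin b3 hcon)))
  have hsM : Summable mainf := by
    have h6 := (summable_zt (fun b => Primary b ∧ IsCoprime b D)).mul_left
      (K * B ^ (2 / 3 : ℝ))
    exact (Complex.summable_ofReal.2 h6).mul_right _
  have hT : ∑ b3 ∈ (PB X).filter (fun b3 => IsCoprime b3 D), ∑ b1 ∈ SC D X,
        V ((N b1 : ℝ) * (N b3 : ℝ) ^ 3 / B) * ((((N b1 : ℝ)) ^ (-(1 / 3) : ℝ) : ℝ) : ℂ) =
      ∑' b3, inner b3 := by
    rw [tsum_eq_sum hfin, sum_filter]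
    refine sum_congr rfl fun b3 hb3 => ?_
    have hp := (mem_PB.1 hb3).1
    by_cases h : IsCoprime b3 D
    · simp only [hinner, if_pos h, if_pos (And.intro hp h)]
    · simp only [hinner, if_neg h, if_neg (fun h' : Primary b3 ∧ IsCoprime b3 D => h h'.2)]
  have hMs : ∑' b3, mainf b3 = ((C0 * dn D * B ^ (2 / 3 : ℝ) : ℝ) : ℂ) * IVb V b := by
    simp only [hmainf]
    rw [tsum_mul_right, ← Complex.ofReal_tsum, tsum_mul_left, ← Zc]
    have h7 := const_identity hD hs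
    rw [← hK] at h7
    rw [show K * B ^ (2 / 3 : ℝ) * Zc D = (K * Zc D) * B ^ (2 / 3 : ℝ) by ring, h7]
  rw [hT, ← hMs, ← hsI.tsum_sub hsM]
  have h8 := tsum_of_norm_bounded hsumerr.hasSum hterm
  refine h8.trans ?_
  rw [tsum_mul_left]
  apply mul_le_mul_of_nonneg_left (tsum_Ef_le hB) (by positivity)

end Vale.Agent.P006.CM
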